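import Vale.Agent.P002R.YCond

/-!
# P002, genus 0: statements for irreducible representations
-/

namespace Vale.Agent.P002L

open Matrix Vale.Agent.P002R

/-- Genus zero, one regular class. -/
def G01Irr : Prop :=
  ∀ {m r : ℕ}, 0 < r → ∀ {R : Type} [CommRing R] (φ : R →+* ℂ) (E : Subgroup ℂˣ),
    CoefOK φ E r →
    ∀ C : Fin (m + 1) → (Mat r ℂ)ˣ, (∀ j, EigIn E (C j : Mat r ℂ)) →
    HasCyc r (C 0 : Mat r ℂ) →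
    ∀ x ∈ YG ({relatorU 0 (m + 1)} : Set (FreeGroup ((Fin 0 × Bool) ⊕ Fin (m + 1)))) C,
    (∀ M : Mat r ℂ, (∀ w, Commute M (x w : Mat r ℂ)) → ∃ c : ℂ, M = c • (1 : Mat r ℂ)) →
    ∀ f : MvPolynomial (((Fin 0 × Bool) ⊕ Fin (m + 1)) × Fin r × Fin r) ℂ,
    (∀ y ∈ DGT ({relatorU 0 (m + 1)} : Set (FreeGroup ((Fin 0 × Bool) ⊕ Fin (m + 1)))) φ C,
      evalG y f = 0) → evalG x f = 0

/-- Genus zero, the last `r` classes are scalar plus rank one and not scalar. -/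
def G0R : Prop :=
  ∀ {m r : ℕ}, 0 < r → ∀ {R : Type} [CommRing R] (φ : R →+* ℂ) (E : Subgroup ℂˣ),
    CoefOK φ E r → (∀ (u : Rˣ) (D : R), D ≠ 0 → ∃ M : ℕ, 0 < M ∧ D ∣ (u : R) ^ M - 1) →
    ∀ C : Fin (m + 1 + r) → (Mat r ℂ)ˣ, (∀ j, EigIn E (C j : Mat r ℂ)) →
    (∀ j : Fin r, RO r (C (Fin.natAdd (m + 1) j) : Mat r ℂ) ∧
      ∀ c : ℂ, (C (Fin.natAdd (m + 1) j) : Mat r ℂ) ≠ c • (1 : Mat r ℂ)) →
    ∀ x ∈ YG ({relatorU 0 (m + 1 + r)} : Set (FreeGroup ((Fin 0 × Bool) ⊕ Fin (m + 1 + r)))) C,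
    (∀ M : Mat r ℂ, (∀ w, Commute M (x w : Mat r ℂ)) → ∃ c : ℂ, M = c • (1 : Mat r ℂ)) →
    ∀ f : MvPolynomial (((Fin 0 × Bool) ⊕ Fin (m + 1 + r)) × Fin r × Fin r) ℂ,
    (∀ y ∈ DGT ({relatorU 0 (m + 1 + r)} :
        Set (FreeGroup ((Fin 0 × Bool) ⊕ Fin (m + 1 + r)))) φ C,
      evalG y f = 0) → evalG x f = 0

end Vale.Agent.P002L
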