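import Vale.Agent.P002L.L0Defs

/-!
# P002, genus 0, one regular class: lifting of flows on graphs
-/

namespace Vale.Agent.P002L

open Matrix Vale.Agent.P002R

/-- Contraction of the edge from `q` to `p`. -/
def ctr {r : ℕ} (p q a : Fin r) : Fin r := if a = q then p else a

theorem ctr_at {r : ℕ} {p q : Fin r} (hpq : p ≠ q) (a : Fin r) :
    (if p = ctr p q a then (1 : ℤ) else 0) = (if p = a then 1 else 0) + if q = a then 1 else 0 := by
  unfold ctr
  by_cases h : a = q
  · subst h
    rw [if_pos rfl, if_pos rfl, if_neg hpq, if_pos rfl, zero_add]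
  · rw [if_neg h, if_neg (Ne.symm h), add_zero]

theorem ctr_off {r : ℕ} {p q : Fin r} (hpq : p ≠ q) (a : Fin r) :
    (if q = ctr p q a then (1 : ℤ) else 0) = 0 := by
  unfold ctr
  by_cases h : a = q
  · rw [if_pos h, if_neg hpq.symm]
  · rw [if_neg h, if_neg (Ne.symm h)]

theorem ctr_ne {r : ℕ} {p q v : Fin r} (hp : v ≠ p) (hq : v ≠ q) (a : Fin r) :
    (if v = ctr p q a then (1 : ℤ) else 0) = if v = a then 1 else 0 := by
  unfold ctr
  by_cases h : a = q
  · subst h
    rw [if_pos rfl, if_neg hp, if_neg hq]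
  · rw [if_neg h]

theorem eb_ctr_at {r : ℕ} {p q : Fin r} (hpq : p ≠ q) (a b : Fin r) :
    eb (ctr p q a) (ctr p q b) p = eb a b p + eb a b q := by
  unfold eb
  rw [ctr_at hpq, ctr_at hpq]
  ring

theorem eb_ctr_off {r : ℕ} {p q : Fin r} (hpq : p ≠ q) (a b : Fin r) :
    eb (ctr p q a) (ctr p q b) q = 0 := by
  unfold eb
  rw [ctr_off hpq, ctr_off hpq, sub_zero]

theorem eb_ctr_ne {r : ℕ} {p q v : Fin r} (hp : v ≠ p) (hq : v ≠ q) (a b : Fin r) :
    eb (ctr p q a) (ctr p q b) v = eb a b v := by
  unfold eb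
  rw [ctr_ne hp hq, ctr_ne hp hq]

theorem eb_self {r : ℕ} (a v : Fin r) : eb a a v = 0 := sub_self _

theorem eb_left {r : ℕ} {a b : Fin r} (h : a ≠ b) : eb a b a = 1 := by
  unfold eb
  rw [if_pos rfl, if_neg h, sub_zero]

theorem eb_right {r : ℕ} {a b : Fin r} (h : a ≠ b) : eb a b b = -1 := by
  unfold eb
  rw [if_neg h.symm, if_pos rfl, zero_sub]

theorem eb_ne {r : ℕ} {a b v : Fin r} (ha : v ≠ a) (hb : v ≠ b) : eb a b v = 0 := by
  unfold eb
  rw [if_neg ha, if_neg hb, sub_zero]

/-- Lifting of flows on graphs. -/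
theorem graph_lift {G₁ G₂ G₃ : Type*} [CommGroup G₁] [CommGroup G₂] [CommGroup G₃] (ι : G₁ →* G₂)
    (ψ : G₂ →* G₃) (hψ : Function.Surjective ψ) (hι : Function.Injective (ψ.comp ι)) {r n : ℕ}
    (s t : Fin n → Fin r) (τ : Fin r → G₁) (y : Fin n → G₃)
    (h : ∀ v, ∏ j, y j ^ eb (s j) (t j) v = ψ (ι (τ v))) :
    ∃ z : Fin n → G₂, (∀ j, ψ (z j) = y j) ∧ ∀ v, ∏ j, z j ^ eb (s j) (t j) v = ι (τ v) := by
  induction n generalizing τ with
  | zero =>
    refine ⟨fun j => j.elim0, fun j => j.elim0, fun v => ?_⟩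
    have h1 := h v
    rw [Finset.univ_eq_empty, Finset.prod_empty] at h1 ⊢
    have h2 : τ v = 1 := hι (by
      rw [MonoidHom.comp_apply, ← h1, map_one])
    rw [h2, map_one]
  | succ n ih =>
    obtain ⟨p, hp⟩ : ∃ p, p = s (Fin.last n) := ⟨_, rfl⟩
    obtain ⟨q, hq⟩ : ∃ q, q = t (Fin.last n) := ⟨_, rfl⟩
    simp only [Fin.prod_univ_castSucc, ← hp, ← hq] at h ⊢
    by_cases hpq : p = q
    · subst hpq
      obtain ⟨z, hz1, hz2⟩ := ih (fun j => s j.castSucc) (fun j => t j.castSucc) τ
        (fun j => y j.castSucc) (fun v => by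
          have h1 := h v
          rw [eb_self, zpow_zero, mul_one] at h1
          exact h1)
      obtain ⟨w, hw⟩ := hψ (y (Fin.last n))
      refine ⟨Fin.snoc z w, fun j => ?_, fun v => ?_⟩
      · refine Fin.lastCases ?_ (fun j => ?_) j
        · rw [Fin.snoc_last, hw]
        · rw [Fin.snoc_castSucc, hz1]
      · rw [eb_self, zpow_zero, mul_one, ← hz2 v]
        refine Finset.prod_congr rfl fun j _ => ?_
        rw [Fin.snoc_castSucc]
    · obtain ⟨z, hz1, hz2⟩ := ih (fun j => ctr p q (s j.castSucc)) (fun j => ctr p q (t j.castSucc))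
        (fun v => if v = p then τ p * τ q else if v = q then 1 else τ v)
        (fun j => y j.castSucc) (fun v => by
          by_cases hvp : v = p
          · subst hvp
            have h1 := h v
            have h2 := h q
            rw [eb_left hpq, zpow_one] at h1
            rw [eb_right hpq, _root_.zpow_neg_one] at h2
            rw [if_pos rfl, map_mul, map_mul, ← h1, ← h2]
            simp only [eb_ctr_at hpq, _root_.zpow_add]
            rw [Finset.prod_mul_distrib]
            rw [mul_mul_mul_comm, mul_inv_cancel, mul_one]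
          · by_cases hvq : v = q
            · subst hvq
              rw [if_neg hvp, if_pos rfl, map_one, map_one]
              refine Finset.prod_eq_one fun j _ => ?_
              rw [eb_ctr_off hpq, zpow_zero]
            · rw [if_neg hvp, if_neg hvq, ← h v, eb_ne hvp hvq, zpow_zero, mul_one]
              refine Finset.prod_congr rfl fun j _ => ?_
              rw [eb_ctr_ne hvp hvq])
      obtain ⟨w, hw⟩ : ∃ w : G₂, w = ι (τ p) /
        ∏ j : Fin n, z j ^ eb (s j.castSucc) (t j.castSucc) p := ⟨_, rfl⟩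
      have hprod : ∀ v, (∏ j : Fin n, (Fin.snoc z w : Fin (n + 1) → G₂) j.castSucc ^
          eb (s j.castSucc) (t j.castSucc) v) =
          ∏ j : Fin n, z j ^ eb (s j.castSucc) (t j.castSucc) v := by
        intro v
        refine Finset.prod_congr rfl fun j _ => ?_
        rw [Fin.snoc_castSucc]
      refine ⟨Fin.snoc z w, fun j => ?_, fun v => ?_⟩
      · refine Fin.lastCases ?_ (fun j => ?_) j
        · rw [Fin.snoc_last, hw, map_div, map_prod]
          have h1 := h p
          rw [eb_left hpq, zpow_one] at h1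
          rw [← h1, div_eq_iff_eq_mul, mul_comm]
          congr 1
          refine Finset.prod_congr rfl fun j _ => ?_
          rw [map_zpow, hz1]
        · rw [Fin.snoc_castSucc, hz1]
      · rw [hprod, Fin.snoc_last]
        by_cases hvp : v = p
        · subst hvp
          rw [eb_left hpq, zpow_one, hw, mul_div_cancel]
        · by_cases hvq : v = q
          · subst hvq
            have h1 := hz2 p
            rw [if_pos rfl, map_mul] at h1
            simp only [eb_ctr_at hpq, _root_.zpow_add] at h1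
            rw [Finset.prod_mul_distrib] at h1
            rw [eb_right hpq, _root_.zpow_neg_one, hw, inv_div, ← mul_div_assoc, div_eq_iff_eq_mul,
              mul_comm, h1, mul_comm]
          · have h1 := hz2 v
            rw [if_neg hvp, if_neg hvq] at h1
            rw [eb_ne hvp hvq, zpow_zero, mul_one, ← h1]
            refine Finset.prod_congr rfl fun j _ => ?_
            rw [eb_ctr_ne hvp hvq]

end Vale.Agent.P002L
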