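import Vale.Agent.P002L.L4Chain
import Vale.Agent.P002L.T2

/-!
# P002, genus 0, one regular class: the lifting theorem
-/

namespace Vale.Agent.P002L

open Matrix Vale.Agent.P002R

variable {R A : Type} [CommRing R] [CommRing A] {φ : R →+* ℂ} {ι : R →+* A} {ψ : A →+* ℂ} {r : ℕ}

theorem chain (hL : Lifting φ ι ψ) : ∀ (m : ℕ) (κ : Fin m → Fin r → ℕ) (l : Fin m → ℕ → Rˣ)
    (c u M : Fin m → Mat r ℂ), (∀ i, UU (u i)) → (∀ i, Kup (κ i) (fun j => φ (l i j)) (M i)) →
    (∀ i, c i * u i = u i * M i) →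
    ∃ (w' : Equiv.Perm (Fin r)) (v₀' : Mat r ℂ), UU v₀' ∧
      ∃ (J : Type) (_ : Fintype J) (s t : J → Fin r) (y : J → ℂˣ) (ε : Fin r → Rˣ),
      ∀ z : J → Aˣ, (∀ j, ψ (z j) = y j) → ∃ c' : Fin m → Mat r A,
        (∀ i, ∃ u' M' : Mat r A, UU u' ∧ Kup (κ i) (fun j => ι (l i j)) M' ∧
          c' i * u' = u' * M' ∧ (c' i).map ψ = c i) ∧
        ∃ b v' : Mat r A, UpT b ∧
          (∀ i, b i i = ι (ε i) * ((∏ j, z j ^ eb (s j) (t j) i : Aˣ) : A)) ∧
          UU v' ∧ v'.map ψ = v₀' ∧ (List.ofFn c').prod = b * pm w' * v' := by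
  intro m
  induction m with
  | zero =>
    intro κ l c u M _ _ _
    refine ⟨1, 1, uu_one, PEmpty, inferInstance, PEmpty.elim, PEmpty.elim, PEmpty.elim, 1,
      fun z _ => ⟨fun i => i.elim0, fun i => i.elim0, 1, 1, upT_one, fun i => ?_, uu_one, ?_, ?_⟩⟩
    · rw [one_apply_eq, Finset.univ_eq_empty, Finset.prod_empty, Pi.one_apply]
      simp
    · exact Matrix.map_one _ (map_zero ψ) (map_one ψ)
    · rw [List.ofFn_zero, List.prod_nil, pm_one, one_mul, one_mul]
  | succ m ih =>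
    intro κ l c u M hu hM hc
    obtain ⟨w₁, v₁, hv₁, J, hJ, s, t, y, ε, h⟩ := ih (fun i => κ i.castSucc)
      (fun i => l i.castSucc) (fun i => c i.castSucc) (fun i => u i.castSucc)
      (fun i => M i.castSucc) (fun i => hu _) (fun i => hM _) (fun i => hc _)
    obtain ⟨w₂, v₂, hv₂, J', hJ', s', t', y', ε', h'⟩ := class_step hL (κ (Fin.last m))
      (l (Fin.last m)) w₁ v₁ hv₁ _ _ _ (hu _) (hM _) (hc _)
    refine ⟨w₂, v₂, hv₂, J ⊕ J', inferInstance, Sum.elim s s', Sum.elim t t', Sum.elim y y',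
      fun i => ε i * ε' i, fun z hz => ?_⟩
    obtain ⟨c', hc', b, v, hb, hbd, hv, hv0, he⟩ := h (fun j => z (Sum.inl j)) fun j =>
      hz (Sum.inl j)
    obtain ⟨g, ⟨ug, Mg, hug, hMg, hge, hg0⟩, b', v', hb', hbd', hv', hv0', he'⟩ := h' v hv hv0
      (fun j => z (Sum.inr j)) fun j => hz (Sum.inr j)
    refine ⟨Fin.snoc c' g, fun i => ?_, b * b', v', hb.mul hb', fun i => ?_, hv', hv0', ?_⟩
    · refine Fin.lastCases ?_ (fun i => ?_) i
      · rw [Fin.snoc_last]
        exact ⟨ug, Mg, hug, hMg, hge, hg0⟩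
      · rw [Fin.snoc_castSucc]
        exact hc' i
    · rw [hb.mul_diag hb', hbd, hbd', Fintype.prod_sum_type]
      simp only [Sum.elim_inl, Sum.elim_inr, Units.val_mul, map_mul]
      ring
    · rw [List.ofFn_succ', List.concat_eq_append, List.prod_append, List.prod_singleton,
        Fin.snoc_last]
      have h1 : (List.ofFn fun i : Fin m => (Fin.snoc c' g : Fin (m + 1) → Mat r A) i.castSucc) =
          List.ofFn c' := by
        congr 1
        funext i
        rw [Fin.snoc_castSucc]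
      rw [h1, he, mul_assoc b, mul_assoc b, he']
      simp only [mul_assoc]

theorem perm_eq_one_of_upT {w : Equiv.Perm (Fin r)} (h : UpT (pm w : Mat r ℂ)) : w = 1 := by
  have h1 : ∀ j, w j ≤ j := by
    intro j
    by_contra hj
    have h2 := h (w j) j (not_le.1 hj)
    rw [pm_apply, if_pos rfl] at h2
    exact one_ne_zero h2
  have h2 : ∀ n : ℕ, ∀ j : Fin r, (j : ℕ) = n → w j = j := by
    intro n
    induction n using Nat.strong_induction_on with
    | _ n ih =>
      intro j hj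
      by_contra hne
      have h3 : w j < j := lt_of_le_of_ne (h1 j) hne
      have h4 := ih (w j) (by rw [← hj]; exact h3) (w j) rfl
      exact hne (w.injective h4)
  ext j
  rw [h2 j j rfl, Equiv.Perm.one_apply]

/-- **The lifting theorem.** -/
theorem lift_main (hL : Lifting φ ι ψ) {m : ℕ} (κ : Fin m → Fin r → ℕ) (l : Fin m → ℕ → Rˣ)
    (c u M : Fin m → Mat r ℂ) (hu : ∀ i, UU (u i)) (hM : ∀ i, Kup (κ i) (fun j => φ (l i j)) (M i))
    (hc : ∀ i, c i * u i = u i * M i) (τ : Fin r → Rˣ) (hP : UpT (List.ofFn c).prod)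
    (hτ : ∀ i, (List.ofFn c).prod i i = φ (τ i)) :
    ∃ c' u' M' : Fin m → Mat r A, (∀ i, UU (u' i)) ∧
      (∀ i, Kup (κ i) (fun j => ι (l i j)) (M' i)) ∧ (∀ i, c' i * u' i = u' i * M' i) ∧
      (∀ i, (c' i).map ψ = c i) ∧ UpT (List.ofFn c').prod ∧
      ∀ i, (List.ofFn c').prod i i = ι (τ i) := by
  obtain ⟨w, v₀, hv₀, J, hJ, s, t, y, ε, h⟩ := chain hL m κ l c u M hu hM hc
  have hmap : ∀ c' : Fin m → Mat r A, (∀ i, (c' i).map ψ = c i) →
      (List.ofFn c').prod.map ψ = (List.ofFn c).prod := by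
    intro c' hc'
    have h1 := map_list_prod (RingHom.mapMatrix (m := Fin r) ψ) (List.ofFn c')
    rw [List.map_ofFn] at h1
    have h2 : (⇑(RingHom.mapMatrix (m := Fin r) ψ) ∘ c') = c := by
      funext i
      exact hc' i
    rw [h2] at h1
    exact h1
  -- the complex point
  choose z₀ hz₀ using fun j => hL.unit (y j)
  obtain ⟨c₁, hc₁, b₁, v₁, hb₁, hbd₁, hv₁, hv₁0, he₁⟩ := h z₀ hz₀
  have hm₁ := hmap c₁ fun i => by
    obtain ⟨_, _, _, _, _, h1⟩ := hc₁ i
    exact h1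
  rw [he₁, Matrix.map_mul, Matrix.map_mul, pm_map, hv₁0] at hm₁
  have hbU : IsUnit (b₁.map ψ).det := by
    rw [(upT_map hb₁ ψ).det, isUnit_iff_ne_zero, Finset.prod_ne_zero_iff]
    intro i _
    rw [map_apply, hbd₁, map_mul, hL.comp]
    have h2 : IsUnit (φ (ε i)) := (Units.map (φ : R →* ℂ) (ε i)).isUnit
    have h3 : IsUnit (ψ ((∏ j, z₀ j ^ eb (s j) (t j) i : Aˣ) : A)) :=
      (Units.map (ψ : A →* ℂ) (∏ j, z₀ j ^ eb (s j) (t j) i)).isUnit
    exact mul_ne_zero h2.ne_zero h3.ne_zero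
  have hw : w = 1 := by
    refine perm_eq_one_of_upT ?_
    have h1 : (pm w : Mat r ℂ) = (b₁.map ψ)⁻¹ * (List.ofFn c).prod * v₀⁻¹ := by
      rw [← hm₁]
      have h2 : (b₁.map ψ)⁻¹ * (b₁.map ψ * pm w * v₀) * v₀⁻¹ =
          ((b₁.map ψ)⁻¹ * b₁.map ψ) * pm w * (v₀ * v₀⁻¹) := by
        simp only [mul_assoc]
      rw [h2, nonsing_inv_mul _ hbU, hv₀.mul_inv, one_mul, mul_one]
    rw [h1]
    exact ((upT_inv (upT_map hb₁ ψ) hbU).mul hP).mul hv₀.inv.1
  subst hw
  -- the equations for the torus variables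
  have hy : ∀ i, ∏ j, y j ^ eb (s j) (t j) i =
      Units.map (ψ : A →* ℂ) (Units.map (ι : R →* A) (τ i / ε i)) := by
    intro i
    ext1
    have h1 := hτ i
    rw [← hm₁, pm_one, mul_one, (upT_map hb₁ ψ).mul_diag hv₀.1, hv₀.2, mul_one, map_apply, hbd₁,
      map_mul, hL.comp] at h1
    have h2 : ψ ((∏ j, z₀ j ^ eb (s j) (t j) i : Aˣ) : A) =
        ((∏ j, y j ^ eb (s j) (t j) i : ℂˣ) : ℂ) := by
      have h3 : Units.map (ψ : A →* ℂ) (∏ j, z₀ j ^ eb (s j) (t j) i) =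
          ∏ j, y j ^ eb (s j) (t j) i := by
        rw [map_prod]
        refine Finset.prod_congr rfl fun j _ => ?_
        rw [map_zpow]
        congr 1
        ext1
        exact hz₀ j
      rw [← h3]
      rfl
    rw [h2] at h1
    have h4 : IsUnit (φ (ε i)) := (Units.map (φ : R →* ℂ) (ε i)).isUnit
    have h5 : ((Units.map (ψ : A →* ℂ) (Units.map (ι : R →* A) (τ i / ε i)) : ℂˣ) : ℂ) =
        φ (τ i) * (φ (ε i))⁻¹ := by
      rw [map_div, map_div, div_eq_mul_inv, Units.val_mul, Units.val_inv_eq_inv_val]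
      congr 1
      · exact hL.comp _
      · congr 1
        exact hL.comp _
    rw [h5, ← h1]
    field_simp [h4.ne_zero]
  -- reindex the edges
  obtain ⟨e, -⟩ : ∃ e : J ≃ Fin (Fintype.card J), True := ⟨Fintype.equivFin J, trivial⟩
  obtain ⟨z, hz1, hz2⟩ := graph_lift (Units.map (ι : R →* A)) (Units.map (ψ : A →* ℂ))
    (fun c => by
      obtain ⟨a, ha⟩ := hL.unit c
      exact ⟨a, Units.ext ha⟩)
    (fun a b hab => by
      ext1
      apply hL.inj
      have h1 := congrArg (Units.val) hab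
      rw [← hL.comp, ← hL.comp]
      exact h1)
    (fun j => s (e.symm j)) (fun j => t (e.symm j)) (fun i => τ i / ε i) (fun j => y (e.symm j))
    (fun v => by
      rw [← hy v]
      exact Equiv.prod_comp e.symm fun j => y j ^ eb (s j) (t j) v)
  obtain ⟨c', hc', b, v, hb, hbd, hv, hv0, he⟩ := h (fun j => z (e j)) fun j => by
    have h1 := hz1 (e j)
    rw [Equiv.symm_apply_apply] at h1
    exact congrArg Units.val h1
  choose u' M' hu' hM' hcu' hc0' using hc'
  rw [pm_one, mul_one] at he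
  refine ⟨c', u', M', hu', hM', hcu', hc0', ?_, fun i => ?_⟩
  · rw [he]
    exact hb.mul hv.1
  · rw [he, hb.mul_diag hv.1, hv.2, mul_one, hbd]
    have h1 : ∏ j, z (e j) ^ eb (s j) (t j) i = Units.map (ι : R →* A) (τ i / ε i) := by
      rw [← hz2 i, ← Equiv.prod_comp e]
      refine Finset.prod_congr rfl fun j _ => ?_
      rw [Equiv.symm_apply_apply]
    rw [h1]
    have h2 : Units.map (ι : R →* A) (ε i) * Units.map (ι : R →* A) (τ i / ε i) =
        Units.map (ι : R →* A) (τ i) := by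
      rw [← map_mul, mul_div_cancel]
    exact congrArg Units.val h2

end Vale.Agent.P002L
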