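import Vale.Agent.P002L.T1
import Vale.Agent.P002L.L5Main
import Vale.Agent.P002L.G01Def
import Vale.Agent.P002R.YG0

/-!
# P002, genus 0, one regular class: all irreducible representations
-/

namespace Vale.Agent.P002L

open Matrix Vale.Agent.P002R

/-- T5: the type of a matrix. -/
def ExType : Prop :=
  ∀ {R : Type} [CommRing R] (φ : R →+* ℂ) {r : ℕ} (C c : (Mat r ℂ)ˣ),
    EigU φ (C : Mat r ℂ) → IsConj C c →
    ∃ (κ : Fin r → ℕ) (l : ℕ → Rˣ) (u M : Mat r ℂ) (h : MvPolynomial (Fin r × Fin r) ℂ),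
      UU u ∧ Kup κ (fun j => φ (l j)) M ∧ (c : Mat r ℂ) * u = u * M ∧
      MvPolynomial.eval (fun p => (c : Mat r ℂ) p.1 p.2) h ≠ 0 ∧
      ∀ (c' : (Mat r ℂ)ˣ) (u' M' : Mat r ℂ), UU u' → Kup κ (fun j => φ (l j)) M' →
        (c' : Mat r ℂ) * u' = u' * M' →
        MvPolynomial.eval (fun p => (c' : Mat r ℂ) p.1 p.2) h ≠ 0 → IsConj C c'

/-- T7: lifting of tuples. -/
def LiftMain : Prop :=
  ∀ {R A : Type} [CommRing R] [CommRing A] {φ : R →+* ℂ} {ι : R →+* A} {ψ : A →+* ℂ},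
    Lifting φ ι ψ → ∀ {r m : ℕ} (κ : Fin m → Fin r → ℕ) (l : Fin m → ℕ → Rˣ)
    (c u M : Fin m → Mat r ℂ), (∀ i, UU (u i)) → (∀ i, Kup (κ i) (fun j => φ (l i j)) (M i)) →
    (∀ i, c i * u i = u i * M i) → ∀ τ : Fin r → Rˣ, UpT (List.ofFn c).prod →
    (∀ i, (List.ofFn c).prod i i = φ (τ i)) →
    ∃ c' u' M' : Fin m → Mat r A, (∀ i, UU (u' i)) ∧
      (∀ i, Kup (κ i) (fun j => ι (l i j)) (M' i)) ∧ (∀ i, c' i * u' i = u' i * M' i) ∧
      (∀ i, (c' i).map ψ = c i) ∧ UpT (List.ofFn c').prod ∧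
      ∀ i, (List.ofFn c').prod i i = ι (τ i)

theorem prod_map_ofFn {S T : Type*} [CommRing S] [CommRing T] (θ : S →+* T) {r m : ℕ}
    (c : Fin m → Mat r S) :
    (List.ofFn fun j => (c j).map θ).prod = ((List.ofFn c).prod).map θ := by
  have h := map_list_prod (θ.mapMatrix (m := Fin r)) (List.ofFn c)
  rw [List.map_ofFn] at h
  exact h.symm

theorem kry_map {S T : Type*} [CommRing S] [CommRing T] (θ : S →+* T) {r : ℕ} (Z : Mat r S)
    (v : Fin r → S) : P002.kry (Z.map θ) (fun i => θ (v i)) = (P002.kry Z v).map θ := by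
  ext i j
  simp only [P002.kry, Matrix.of_apply, Matrix.map_apply]
  have h2 : (Z.map θ) ^ (j : ℕ) = (Z ^ (j : ℕ)).map θ := by
    have := map_pow θ.mapMatrix Z (j : ℕ)
    exact this.symm
  rw [h2, RingHom.map_mulVec]
  rfl

/-- A polynomial which detects cyclic vectors. -/
theorem exists_cycP {m r : ℕ} (v : Fin r → ℂ) : ∃ q : MvPolynomial (GenU 0 (m + 1) × Fin r × Fin r) ℂ,
    ∀ c : Fin (m + 1) → Mat r ℂ, evT q c = (P002.kry (c 0) v).det := by
  refine ⟨(P002.kry (Matrix.of fun i j => (MvPolynomial.X (Sum.inr 0, i, j) :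
    MvPolynomial (GenU 0 (m + 1) × Fin r × Fin r) ℂ)) fun i => MvPolynomial.C (v i)).det,
    fun c => ?_⟩
  rw [evT, RingHom.map_det]
  congr 1
  have h := kry_map (MvPolynomial.eval fun p : GenU 0 (m + 1) × Fin r × Fin r =>
    (Sum.elim (fun _ => (0 : Mat r ℂ)) c p.1) p.2.1 p.2.2) (Matrix.of fun i j =>
    (MvPolynomial.X (Sum.inr 0, i, j) : MvPolynomial (GenU 0 (m + 1) × Fin r × Fin r) ℂ))
    fun i => MvPolynomial.C (v i)
  rw [RingHom.mapMatrix_apply, ← h]
  congr 1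
  · ext i j
    rw [Matrix.map_apply, Matrix.of_apply, MvPolynomial.eval_X]
    rfl
  · funext i
    rw [MvPolynomial.eval_C]

/-- A polynomial in the entries of one member of the tuple. -/
theorem evT_rename {m r : ℕ} (i : Fin (m + 1)) (h : MvPolynomial (Fin r × Fin r) ℂ)
    (c : Fin (m + 1) → Mat r ℂ) :
    evT (MvPolynomial.rename (fun p => ((Sum.inr i, p) : GenU 0 (m + 1) × Fin r × Fin r)) h) c =
      MvPolynomial.eval (fun p => c i p.1 p.2) h := by
  rw [evT, MvPolynomial.eval_rename]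
  rfl

/-- Inverse of an upper triangular matrix with unit diagonal. -/
theorem upT_left_inv {r : ℕ} {A B : Mat r ℂ} (h : A * B = 1) (hB : UpT B) (hd : ∀ i, B i i ≠ 0) :
    UpT A ∧ ∀ i, A i i = (B i i)⁻¹ := by
  have h1 : A = B⁻¹ := (Matrix.inv_eq_left_inv h).symm
  rw [h1]
  exact ⟨hB.inv hd, inv_diag hB hd⟩

/-- The main step: density in the chart. -/
theorem core (hET : ExType) (hLM : LiftMain) {m r : ℕ} (hr : 0 < r) {R : Type} [CommRing R]
    (φ : R →+* ℂ) (E : Subgroup ℂˣ) (hc : CoefOK φ E r) (C : Fin (m + 1) → (Mat r ℂ)ˣ)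
    (hE : ∀ j, EigIn E (C j : Mat r ℂ)) (h0 : HasCyc r (C 0 : Mat r ℂ))
    (x : FU 0 (m + 1) →* (Mat r ℂ)ˣ) (hx1 : x (relatorU 0 (m + 1)) = 1)
    (hx2 : ∀ j, IsConj (C j) (x (FreeGroup.of (Sum.inr j)))) (hup : UpT (bt x 0))
    (f : MvPolynomial (GenU 0 (m + 1) × Fin r × Fin r) ℂ)
    (hf : ∀ y : FU 0 (m + 1) →* (Mat r ℂ)ˣ, y (relatorU 0 (m + 1)) = 1 →
      (∀ j, IsConj (C j) (y (FreeGroup.of (Sum.inr j)))) →
      (∀ k, y (FreeGroup.of k) ∈ GR r φ) → evalG y f = 0) : evalG x f = 0 := by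
  have hrel : bt x 0 * (List.ofFn fun j : Fin m => bt x j.succ).prod = 1 := by
    have h1 := (relU_iff x).1 hx1
    rwa [← List.ofFn_eq_map, List.ofFn_succ, List.prod_cons] at h1
  obtain ⟨P, hP⟩ : ∃ P, P = (List.ofFn fun j : Fin m => bt x j.succ).prod := ⟨_, rfl⟩
  rw [← hP] at hrel
  have hrel' : P * bt x 0 = 1 := mul_eq_one_comm.1 hrel
  have hcp0 : (bt x 0).charpoly = (C 0 : Mat r ℂ).charpoly := charpoly_of_isConj (hx2 0)
  have heig : ∀ i, ∃ e ∈ E, (e : ℂ) = bt x 0 i i := by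
    intro i
    apply hE 0
    rw [← hcp0, charpoly_upT hup, Polynomial.IsRoot, Polynomial.eval_prod]
    refine Finset.prod_eq_zero (Finset.mem_univ i) ?_
    rw [Polynomial.eval_sub, Polynomial.eval_X, Polynomial.eval_C, sub_self]
  choose e heE he using heig
  have hd0 : ∀ i, bt x 0 i i ≠ 0 := fun i => by rw [← he]; exact (e i).ne_zero
  obtain ⟨hPup, hPd⟩ := upT_left_inv hrel' hup hd0
  have hτ : ∀ i, ∃ t : Rˣ, φ t = ((e i)⁻¹ : ℂˣ) := fun i => hc.exists_unit hr (E.inv_mem (heE i))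
  choose τ hτ using hτ
  have hPτ : ∀ i, P i i = φ (τ i) := fun i => by
    rw [hPd, hτ, ← he, Units.val_inv_eq_inv_val]
  have hty := fun i : Fin m => hET φ (C i.succ) (x (FreeGroup.of (Sum.inr i.succ)))
    (fun z hz => by
      obtain ⟨e, he, rfl⟩ := hE i.succ z hz
      exact hc.exists_unit hr he) (hx2 i.succ)
  choose κ l u M h hu hM hcu hh hcl using hty
  obtain ⟨uf, huf⟩ := hc.exists_free
  obtain ⟨A, hA, ι, ψ, hL⟩ := exists_lifting φ hc.inj uf huf
  obtain ⟨c', u', M', hu', hM', hcu', hcψ, hup', hd'⟩ := hLM hL κ l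
    (fun i => bt x i.succ) u M hu hM hcu τ (by rw [← hP]; exact hPup)
    (fun i => by rw [← hP]; exact hPτ i)
  obtain ⟨PA, hPA⟩ : ∃ PA, PA = (List.ofFn c').prod := ⟨_, rfl⟩
  rw [← hPA] at hup' hd'
  obtain ⟨δ, hδ⟩ : ∃ δ : Rˣ, δ = ∏ i, τ i := ⟨_, rfl⟩
  have hdetPA : PA.det = ι δ := by
    rw [hup'.det, hδ, Units.coe_prod, map_prod]
    exact Finset.prod_congr rfl fun i _ => hd' i
  obtain ⟨c0, hc0⟩ : ∃ c0 : Mat r A, c0 = ι ((δ⁻¹ : Rˣ) : R) • PA.adjugate := ⟨_, rfl⟩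
  have hc0P : c0 * PA = 1 := by
    rw [hc0, smul_mul_assoc, Matrix.adjugate_mul, smul_smul, hdetPA, ← map_mul, Units.inv_mul,
      map_one, one_smul]
  obtain ⟨cA, hcA⟩ : ∃ cA : Fin (m + 1) → Mat r A, cA = Fin.cons c0 c' := ⟨_, rfl⟩
  have hcA0 : cA 0 = c0 := by rw [hcA, Fin.cons_zero]
  have hcAs : ∀ i : Fin m, cA i.succ = c' i := fun i => by rw [hcA, Fin.cons_succ]
  have hprodA : (List.ofFn cA).prod = 1 := by
    rw [List.ofFn_succ, List.prod_cons, hcA0, ← hc0P, hPA]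
    congr 3
    funext i
    exact hcAs i
  -- the cyclic vector
  have hcyc : HasCyc r (bt x 0) := by
    obtain ⟨v, hv⟩ := h0
    exact cyc_of_isConj (hx2 0) hv
  obtain ⟨v, hv⟩ := hcyc
  have hv' : P002G.Cyc (bt x 0) v := hv
  rw [P002G.cyc_iff, Matrix.isUnit_iff_isUnit_det, isUnit_iff_ne_zero] at hv'
  obtain ⟨q, hq⟩ := exists_cycP (m := m) v
  obtain ⟨F, hF⟩ : ∃ F : MvPolynomial (GenU 0 (m + 1) × Fin r × Fin r) ℂ, F = f * (q *
    ∏ i : Fin m, MvPolynomial.rename (fun p => ((Sum.inr i.succ, p) :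
      GenU 0 (m + 1) × Fin r × Fin r)) (h i)) := ⟨_, rfl⟩
  have hFev : ∀ c : Fin (m + 1) → Mat r ℂ, evT F c = evT f c * ((P002.kry (c 0) v).det *
      ∏ i : Fin m, MvPolynomial.eval (fun p => c i.succ p.1 p.2) (h i)) := by
    intro c
    have h1 : ∀ a b : MvPolynomial (GenU 0 (m + 1) × Fin r × Fin r) ℂ,
        evT (a * b) c = evT a c * evT b c := fun a b => map_mul _ a b
    rw [hF, h1, h1, hq]
    congr 2
    have h2 : evT (∏ i : Fin m, MvPolynomial.rename (fun p => ((Sum.inr i.succ, p) :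
      GenU 0 (m + 1) × Fin r × Fin r)) (h i)) c = ∏ i : Fin m, evT (MvPolynomial.rename
        (fun p => ((Sum.inr i.succ, p) : GenU 0 (m + 1) × Fin r × Fin r)) (h i)) c :=
      map_prod _ _ _
    rw [h2]
    exact Finset.prod_congr rfl fun i _ => evT_rename i.succ (h i) c
  have hevA : ∀ (θ : A →+* ℂ), MvPolynomial.eval (fun s : GenU 0 (m + 1) × Fin r × Fin r =>
      θ ((Sum.elim (fun _ => (0 : Mat r A)) cA s.1) s.2.1 s.2.2)) F =
      evT F fun j => (cA j).map θ := by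
    intro θ
    rw [evT]
    refine congrArg (fun w => MvPolynomial.eval w F) (funext fun s => ?_)
    obtain ⟨k | j, a, b⟩ := s
    · exact k.1.elim0
    · rfl
  have hkey : evT F (fun j => (cA j).map ψ) = 0 := by
    rw [← hevA ψ]
    refine hL.dens F (fun s : GenU 0 (m + 1) × Fin r × Fin r =>
      (Sum.elim (fun _ => (0 : Mat r A)) cA s.1) s.2.1 s.2.2) fun η hη => ?_
    have h1 := hevA (φ.comp η)
    refine h1.trans ?_
    obtain ⟨cC, hcC⟩ : ∃ cC : Fin (m + 1) → Mat r ℂ, cC = fun j => (cA j).map (φ.comp η) :=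
      ⟨_, rfl⟩
    obtain ⟨cR, hcR⟩ : ∃ cR : Fin (m + 1) → Mat r R, cR = fun j => (cA j).map η := ⟨_, rfl⟩
    have hcCR : ∀ j, cC j = (cR j).map φ := by
      intro j
      rw [hcC, hcR]
      rfl
    have hprodC : (List.ofFn cC).prod = 1 := by
      rw [hcC, prod_map_ofFn, hprodA]
      exact Matrix.map_one _ (map_zero _) (map_one _)
    rw [← hcC, hFev]
    by_contra hne
    have hne1 := left_ne_zero_of_mul hne
    have hne2 := left_ne_zero_of_mul (right_ne_zero_of_mul hne)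
    have hne3 := Finset.prod_ne_zero_iff.1 (right_ne_zero_of_mul (right_ne_zero_of_mul hne))
    obtain ⟨y, hy1, hy2⟩ := exists_hom (m + 1) cC hprodC
    apply hne1
    have hbty : bt y = cC := funext hy2
    rw [← hbty, ← evalG_eq_evT]
    -- the first member
    obtain ⟨PC, hPC⟩ : ∃ PC : Mat r ℂ, PC = PA.map (φ.comp η) := ⟨_, rfl⟩
    have hPCd : ∀ i, PC i i = φ (τ i) := by
      intro i
      rw [hPC, Matrix.map_apply, hd', RingHom.comp_apply, hη]
    have hPCup : UpT PC := by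
      intro i j hij
      rw [hPC, Matrix.map_apply, hup' i j hij, map_zero]
    have hCP : cC 0 * PC = 1 := by
      have h2 : (c0 * PA).map (φ.comp η) = (1 : Mat r A).map (φ.comp η) := by rw [hc0P]
      rw [Matrix.map_mul, Matrix.map_one _ (map_zero _) (map_one _)] at h2
      rw [hPC, hcC]
      simp only
      rw [hcA0]
      exact h2
    obtain ⟨hC0up, hC0d⟩ := upT_left_inv hCP hPCup (fun i => by
      rw [hPCd, hτ]
      exact Units.ne_zero _)
    have hconj : ∀ j, IsConj (C j) (y (FreeGroup.of (Sum.inr j))) := by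
      intro j
      refine Fin.cases ?_ (fun i => ?_) j
      · obtain ⟨w, hw⟩ := h0
        refine isConj_of_cyc (v := w) (w := v) _ _ ?_ hw ?_
        · rw [hy2 0, ← hcp0, charpoly_upT hup, charpoly_upT hC0up]
          refine Finset.prod_congr rfl fun i _ => ?_
          rw [hC0d, hPCd, hτ, Units.val_inv_eq_inv_val, inv_inv, he]
        · rw [P002G.cyc_iff, Matrix.isUnit_iff_isUnit_det, isUnit_iff_ne_zero, hy2 0]
          exact hne2
      · refine hcl i _ ((u' i).map (φ.comp η)) ((M' i).map (φ.comp η)) ((hu' i).map _) ?_ ?_ ?_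
        · have h3 := (hM' i).map (φ.comp η)
          have h4 : (fun j => (φ.comp η) (ι ((l i j : Rˣ) : R))) = fun j => φ ((l i j : Rˣ) : R) :=
            funext fun j => by rw [RingHom.comp_apply, hη]
          rw [h4] at h3
          exact h3
        · rw [hy2, hcC]
          simp only
          rw [hcAs, ← Matrix.map_mul, hcu' i, Matrix.map_mul]
        · have h3 := hne3 i (Finset.mem_univ i)
          rw [← hbty] at h3
          exact h3
    refine hf y hy1 hconj ?_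
    rintro (k | j)
    · exact k.1.elim0
    · obtain ⟨e, he, hed⟩ := (hE j).det
      obtain ⟨c, hcc⟩ := exists_unit_root_of_mem hc hr (cR j).det e he (by
        rw [hed, RingHom.map_det]
        change ((cR j).map φ).det = _
        rw [← hcCR, ← hy2, (cjM_of_isConj (hconj j)).det])
      exact mem_GR_of φ _ (cR j) ((hy2 j).trans (hcCR j)) c hcc
  have hψ : (fun j => (cA j).map ψ) = bt x := by
    funext j
    refine Fin.cases ?_ (fun i => ?_) j
    · rw [hcA0]
      have h2 : (c0 * PA).map ψ = (1 : Mat r A).map ψ := by rw [hc0P]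
      rw [Matrix.map_mul, Matrix.map_one _ (map_zero _) (map_one _)] at h2
      have h3 : PA.map ψ = P := by
        rw [hPA, ← prod_map_ofFn, hP]
        congr 2
        funext i
        exact hcψ i
      rw [h3] at h2
      rw [← mul_one (c0.map ψ), ← hrel', ← mul_assoc, h2, one_mul]
    · rw [hcAs]
      exact hcψ i
  rw [hψ, hFev] at hkey
  rw [evalG_eq_evT]
  refine (mul_eq_zero.1 hkey).resolve_right (mul_ne_zero hv' ?_)
  exact Finset.prod_ne_zero_iff.2 fun i _ => hh i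

/-- Genus zero, one regular class. -/
theorem g01Irr_of (hET : ExType) (hLM : LiftMain) : G01Irr := by
  intro m r hr R _ φ E hc C hE h0 x hx hirr f hf
  obtain ⟨hx1, hx2, hx3⟩ := hx
  have hadj := adjoin_top_of_irr x hx3 hirr
  have hxrel : x (relatorU 0 (m + 1)) = 1 := hx1 _ rfl
  refine upgrade x hadj {y | y (relatorU 0 (m + 1)) = 1 ∧
    (∀ j, IsConj (C j) (y (FreeGroup.of (Sum.inr j)))) ∧
    ∀ k, y (FreeGroup.of k) ∈ GR r φ} ?_ f ?_
  · intro f' hf'
    obtain ⟨J, hJ, hJup⟩ := exists_upT (x (FreeGroup.of (Sum.inr 0)))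
    obtain ⟨P, hP⟩ := isConj_iff.1 hJ
    obtain ⟨f'', hf''⟩ := exists_conjP P⁻¹ f'
    have hback : conjH P⁻¹ (conjH P x) = x := by
      refine MonoidHom.ext fun w => ?_
      rw [conjH_apply, conjH_apply, inv_inv]
      group
    rw [← hback, ← hf'']
    refine core hET hLM hr φ E hc C hE h0 (conjH P x) ?_ (fun j => ?_) ?_ f'' ?_
    · rw [conjH_apply, hxrel, mul_one, mul_inv_cancel]
    · refine (hx2 j).trans ?_
      rw [isConj_iff]
      exact ⟨P, (conjH_apply _ _ _).symm⟩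
    · rw [bt_eqn, conjH_apply, hP]
      exact hJup
    · intro y hy1 hy2 hy3
      rw [hf'']
      refine conj_vanish_gen {y | y (relatorU 0 (m + 1)) = 1 ∧
        (∀ j, IsConj (C j) (y (FreeGroup.of (Sum.inr j)))) ∧
        ∀ k, y (FreeGroup.of k) ∈ GR r φ} ?_ f' hf' y ⟨hy1, hy2, hy3⟩ P⁻¹
      rintro z ⟨hz1, hz2, hz3⟩ X
      refine ⟨?_, fun j => ?_, fun k => ?_⟩
      · rw [conjH_apply, hz1, mul_one, mul_inv_cancel]
      · refine (hz2 j).trans ?_
        rw [isConj_iff]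
        exact ⟨slU (Int.castRingHom ℂ) X, (conjH_apply _ _ _).symm⟩
      · rw [conjH_apply]
        exact (GR r φ).mul_mem ((GR r φ).mul_mem (slU_int_mem_GR φ X) (hz3 k))
          ((GR r φ).inv_mem (slU_int_mem_GR φ X))
  · rintro y ⟨hy1, hy2, hy3⟩ hy4
    refine hf y ⟨⟨⟨?_, hy2, ss_of_adjoin y hy4⟩, hy3⟩, hy4⟩
    rintro w rfl
    exact hy1

end Vale.Agent.P002L
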