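import Vale.Agent.P002L.L0Defs

/-!
# P002, genus 0, one regular class: unitriangular matrices, permutations, letters
-/

namespace Vale.Agent.P002L

open Matrix Vale.Agent.P002R

variable {S T : Type*} [CommRing S] [CommRing T] {r : ℕ}

theorem UU.mul {u v : Mat r S} (hu : UU u) (hv : UU v) : UU (u * v) :=
  ⟨hu.1.mul hv.1, fun i => by rw [hu.1.mul_diag hv.1, hu.2, hv.2, mul_one]⟩

theorem uu_one : UU (1 : Mat r S) := ⟨upT_one, fun i => one_apply_eq i⟩

theorem UU.det {u : Mat r S} (hu : UU u) : u.det = 1 := by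
  rw [hu.1.det]
  exact Finset.prod_eq_one fun i _ => hu.2 i

theorem UU.isUnit {u : Mat r S} (hu : UU u) : IsUnit u.det := by
  rw [hu.det]
  exact isUnit_one

theorem UU.map {u : Mat r S} (hu : UU u) (f : S →+* T) : UU (u.map f) :=
  ⟨fun i j h => by rw [map_apply, hu.1 i j h, map_zero], fun i => by
    rw [map_apply, hu.2, map_one]⟩

theorem upT_map {u : Mat r S} (hu : UpT u) (f : S →+* T) : UpT (u.map f) :=
  fun i j h => by rw [map_apply, hu i j h, map_zero]

theorem upT_inv {A : Mat r S} (hA : UpT A) (h : IsUnit A.det) : UpT A⁻¹ := by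
  have := Matrix.invertibleOfIsUnitDet A h
  intro i j h
  exact Matrix.blockTriangular_inv_of_blockTriangular (M := A) (b := id)
    (fun i j h => hA i j h) h

theorem UU.inv {u : Mat r S} (hu : UU u) : UU u⁻¹ := by
  have h1 := upT_inv hu.1 hu.isUnit
  refine ⟨h1, fun i => ?_⟩
  have h2 := hu.1.mul_diag h1 i
  rw [mul_nonsing_inv _ hu.isUnit, one_apply_eq, hu.2, one_mul] at h2
  exact h2.symm

theorem UU.mul_inv {u : Mat r S} (hu : UU u) : u * u⁻¹ = 1 := mul_nonsing_inv _ hu.isUnit

theorem UU.inv_mul {u : Mat r S} (hu : UU u) : u⁻¹ * u = 1 := nonsing_inv_mul _ hu.isUnit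

theorem UU.map_inv {u : Mat r S} (hu : UU u) (f : S →+* T) : (u⁻¹).map f = (u.map f)⁻¹ := by
  symm
  refine Matrix.inv_eq_left_inv ?_
  rw [← Matrix.map_mul, hu.inv_mul, Matrix.map_one _ (map_zero f) (map_one f)]

/-! ### Permutation matrices -/

/-- The permutation matrix `e_j ↦ e_{w j}`. -/
def pm (w : Equiv.Perm (Fin r)) : Mat r S := Matrix.of fun i j => if i = w j then 1 else 0

theorem pm_apply (w : Equiv.Perm (Fin r)) (i j : Fin r) :
    (pm w : Mat r S) i j = if i = w j then 1 else 0 := rfl

theorem mul_pm (A : Mat r S) (w : Equiv.Perm (Fin r)) (i j : Fin r) :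
    (A * (pm w : Mat r S)) i j = A i (w j) := by
  rw [mul_apply, Finset.sum_eq_single (w j)]
  · rw [pm_apply, if_pos rfl, mul_one]
  · intro k _ hk
    rw [pm_apply, if_neg hk, mul_zero]
  · intro h
    exact absurd (Finset.mem_univ _) h

theorem pm_mul (A : Mat r S) (w : Equiv.Perm (Fin r)) (i j : Fin r) :
    ((pm w : Mat r S) * A) (w i) j = A i j := by
  rw [mul_apply, Finset.sum_eq_single i]
  · rw [pm_apply, if_pos rfl, one_mul]
  · intro k _ hk
    rw [pm_apply, if_neg fun h => hk (w.injective h).symm, zero_mul]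
  · intro h
    exact absurd (Finset.mem_univ _) h

theorem pm_mul_pm (w w' : Equiv.Perm (Fin r)) : (pm w * pm w' : Mat r S) = pm (w * w') := by
  ext i j
  rw [mul_pm, pm_apply, pm_apply, Equiv.Perm.mul_apply]

theorem pm_one : (pm 1 : Mat r S) = 1 := by
  ext i j
  rw [pm_apply, one_apply, Equiv.Perm.one_apply]

theorem pm_map (w : Equiv.Perm (Fin r)) (f : S →+* T) : (pm w : Mat r S).map f = pm w := by
  ext i j
  rw [map_apply, pm_apply, pm_apply]
  split_ifs
  · exact map_one f
  · exact map_zero f

/-- `pm w * A = A' * pm w`. -/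
theorem pm_comm {w : Equiv.Perm (Fin r)} {A A' : Mat r S} (h : ∀ i j, A' (w i) (w j) = A i j) :
    (pm w : Mat r S) * A = A' * (pm w : Mat r S) := by
  ext i j
  obtain ⟨i, rfl⟩ := w.surjective i
  rw [pm_mul, mul_pm, h]

/-! ### Letters -/

/-- The elementary matrix. -/
def xx (a b : Fin r) (z : S) : Mat r S := 1 + Matrix.single a b z

theorem xx_map (a b : Fin r) (z : S) (f : S →+* T) : (xx a b z).map f = xx a b (f z) := by
  ext i j
  simp only [xx, map_apply, Matrix.add_apply, map_add, one_apply, single_apply]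
  congr 1
  · split_ifs
    · exact map_one f
    · exact map_zero f
  · split_ifs
    · rfl
    · exact map_zero f

theorem uu_xx {a b : Fin r} (h : a < b) (z : S) : UU (xx a b z) := by
  refine ⟨fun i j hij => ?_, fun i => ?_⟩
  · rw [xx, Matrix.add_apply, one_apply_ne hij.ne', single_apply, if_neg, add_zero]
    rintro ⟨rfl, rfl⟩
    exact absurd h (not_lt.2 hij.le)
  · rw [xx, Matrix.add_apply, one_apply_eq, single_apply, if_neg, add_zero]
    rintro ⟨rfl, h2⟩
    exact absurd h2 h.ne'

theorem xx_mul_xx {a b : Fin r} (h : a ≠ b) (y z : S) : xx a b y * xx a b z = xx a b (y + z) := by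
  rw [xx, xx, xx, mul_add, mul_one, add_mul, one_mul, single_mul_single_of_ne _ _ _ _ h.symm,
    add_zero, add_assoc, single_add]

theorem xx_zero (a b : Fin r) : xx a b (0 : S) = 1 := by
  rw [xx, single_zero, add_zero]

theorem xx_mul_apply {a b : Fin r} (z : S) (A : Mat r S) (i j : Fin r) :
    (xx a b z * A) i j = A i j + if i = a then z * A b j else 0 := by
  rw [xx, add_mul, one_mul, Matrix.add_apply]
  congr 1
  split_ifs with h
  · rw [h, single_mul_apply_same]
  · rw [single_mul_apply_of_ne _ _ _ _ _ h]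

theorem mul_xx_apply {a b : Fin r} (z : S) (A : Mat r S) (i j : Fin r) :
    (A * xx a b z) i j = A i j + if j = b then A i a * z else 0 := by
  rw [xx, mul_add, mul_one, Matrix.add_apply]
  congr 1
  split_ifs with h
  · rw [h, mul_single_apply_same]
  · rw [mul_single_apply_of_ne _ _ _ _ _ h]

theorem pm_xx (w : Equiv.Perm (Fin r)) (a b : Fin r) (z : S) :
    pm w * xx a b z = xx (w a) (w b) z * pm w := by
  refine pm_comm fun i j => ?_
  simp only [xx, Matrix.add_apply, one_apply, single_apply, EmbeddingLike.apply_eq_iff_eq]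

/-- The diagonal matrix with `y` at `a`, `-1/y` at `b`. -/
def dd (a b : Fin r) (y : Sˣ) : Mat r S :=
  diagonal fun i => if i = a then (y : S) else if i = b then -((y⁻¹ : Sˣ) : S) else 1

theorem pm_dd (w : Equiv.Perm (Fin r)) (a b : Fin r) (y : Sˣ) :
    pm w * dd a b y = dd (w a) (w b) y * pm w := by
  refine pm_comm fun i j => ?_
  simp only [dd, diagonal_apply, EmbeddingLike.apply_eq_iff_eq]

theorem pm_swap {a b : Fin r} (h : a ≠ b) : (pm (Equiv.swap a b) : Mat r S) =
    1 - single a a 1 - single b b 1 + single a b 1 + single b a 1 := by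
  ext i j
  simp only [pm_apply, Matrix.add_apply, Matrix.sub_apply, one_apply, single_apply, Equiv.swap_apply_def]
  by_cases hi : i = a
  · subst hi
    by_cases hj : j = i
    · subst hj
      simp [h, h.symm]
    · by_cases hj' : j = b
      · subst hj'
        simp [h, h.symm]
      · simp [h, h.symm, hj, hj', Ne.symm hj, Ne.symm hj']
  · by_cases hi' : i = b
    · subst hi'
      by_cases hj : j = a
      · subst hj
        simp [h, h.symm]
      · by_cases hj' : j = i
        · subst hj'
          simp [h, h.symm]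
        · simp [h, h.symm, hj, hj', Ne.symm hj, Ne.symm hj']
    · by_cases hj : j = a
      · subst hj
        simp [h, hi, hi', Ne.symm hi, Ne.symm hi']
      · by_cases hj' : j = b
        · subst hj'
          simp [h, h.symm, hi, hi', hj, Ne.symm hi, Ne.symm hi']
        · simp [hi, hi', hj, hj', Ne.symm hi, Ne.symm hi', Ne.symm hj, Ne.symm hj']

theorem dd_eq {a b : Fin r} (h : a ≠ b) (y : Sˣ) : dd a b y =
    1 - single a a 1 - single b b 1 + single a a (y : S) - single b b ((y⁻¹ : Sˣ) : S) := by
  ext i j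
  simp only [dd, diagonal_apply, Matrix.add_apply, Matrix.sub_apply, one_apply, single_apply]
  by_cases hij : i = j
  · subst hij
    by_cases hi : i = a
    · subst hi
      simp [h, h.symm]
    · by_cases hi' : i = b
      · subst hi'
        simp [h, h.symm]
      · simp [hi, hi', Ne.symm hi, Ne.symm hi']
  · have h1 : ∀ c : Fin r, ¬ (c = i ∧ c = j) := fun c hc => hij (hc.1.symm.trans hc.2)
    simp [hij, h1]

/-- The stay identity. -/
theorem stay_id {a b : Fin r} (h : a ≠ b) (y : Sˣ) : xx a b (y : S) * pm (Equiv.swap a b) =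
    xx b a ((y⁻¹ : Sˣ) : S) * dd a b y * xx a b ((y⁻¹ : Sˣ) : S) := by
  rw [pm_swap h, dd_eq h]
  simp only [xx, mul_add, add_mul, mul_sub, sub_mul, mul_one, one_mul, single_mul_single_same,
    single_mul_single_of_ne _ _ _ _ h, single_mul_single_of_ne _ _ _ _ h.symm, Units.inv_mul,
    Units.mul_inv, add_zero, sub_zero, zero_mul, mul_zero]
  abel

end Vale.Agent.P002L
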