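import Vale.Agent.P002L.T5
import Vale.Agent.P002L.L5Main
import Vale.Agent.P002L.T8

/-!
# P002, genus 0, one regular class: the main theorem for irreducible representations
-/

namespace Vale.Agent.P002L

/-- The main theorem in genus zero, one regular class. -/
theorem g01Irr : G01Irr := by
  refine g01Irr_of ?_ ?_
  · intro R _ φ r C c hC hc
    exact exists_type φ C c hC hc
  · intro R A _ _ φ ι ψ hL r m κ l c u M hu hM hc τ hP hτ
    exact lift_main hL κ l c u M hu hM hc τ hP hτ

end Vale.Agent.P002L
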