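import Vale.Agent.P002R.ZCell
import Vale.Agent.P002R.YInt

/-!
# P002, genus 0, one regular class: definitions
-/

namespace Vale.Agent.P002L

open Matrix Vale.Agent.P002R

/-- Upper unitriangular matrices. -/
def UU {S : Type*} [CommRing S] {r : ℕ} (u : Mat r S) : Prop := UpT u ∧ ∀ i, u i i = 1

/-- Matrices with diagonal entries `l (κ i)`, which are strictly upper triangular with respect to
the labels `κ` off the diagonal. -/
def Kup {S : Type*} [CommRing S] {r : ℕ} (κ : Fin r → ℕ) (l : ℕ → S) (M : Mat r S) : Prop :=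
  (∀ i, M i i = l (κ i)) ∧ ∀ i j, i ≠ j → ¬ κ i < κ j → M i j = 0

/-- Exponent of the edge from `b` to `a` at the vertex `v`. -/
def eb {r : ℕ} (a b v : Fin r) : ℤ := (if v = a then 1 else 0) - (if v = b then 1 else 0)

/-- A ring `A` between `R` and `ℂ` such that all complex numbers lift to `A`, the nonzero ones to
units, and such that the `R`-points of `A` are dense near the given complex point. -/
structure Lifting {R A : Type} [CommRing R] [CommRing A] (φ : R →+* ℂ) (ι : R →+* A)
    (ψ : A →+* ℂ) : Prop where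
  comp : ∀ a, ψ (ι a) = φ a
  inj : Function.Injective φ
  surj : ∀ c : ℂ, ∃ a, ψ a = c
  unit : ∀ c : ℂˣ, ∃ a : Aˣ, ψ a = c
  dens : ∀ {σ : Type} (f : MvPolynomial σ ℂ) (a : σ → A),
    (∀ η : A →+* R, (∀ s, η (ι s) = s) → MvPolynomial.eval (fun i => φ (η (a i))) f = 0) →
    MvPolynomial.eval (fun i => ψ (a i)) f = 0

end Vale.Agent.P002L
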