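import Vale.Agent.P002L.L1Mat

/-!
# P002, genus 0, one regular class: steps
-/

namespace Vale.Agent.P002L

open Matrix Vale.Agent.P002R

section general

variable {S T : Type*} [CommRing S] [CommRing T] {r : ℕ}

theorem swap_conj_apply (a b : Fin r) (v : Mat r S) (i j : Fin r) :
    ((pm (Equiv.swap a b) : Mat r S) * v * (pm (Equiv.swap a b) : Mat r S)) i j =
      v (Equiv.swap a b i) (Equiv.swap a b j) := by
  rw [mul_pm]
  conv_lhs => rw [← Equiv.swap_apply_self a b i]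
  rw [pm_mul]

theorem swap_lt {a b : Fin r} (hab : (b : ℕ) = a + 1) {i j : Fin r} (h : j < i) :
    Equiv.swap a b j < Equiv.swap a b i ∨ (i = b ∧ j = a) := by
  rw [Equiv.swap_apply_def, Equiv.swap_apply_def]
  rw [Fin.lt_def] at h
  split_ifs <;> simp only [Fin.lt_def, Fin.ext_iff] at * <;> omega

theorem pm_swap_sq (a b : Fin r) :
    (pm (Equiv.swap a b) : Mat r S) * pm (Equiv.swap a b) = 1 := by
  rw [pm_mul_pm, Equiv.swap_mul_self, pm_one]

theorem uu_swap {a b : Fin r} (hab : (b : ℕ) = a + 1) {v : Mat r S} (hv : UU v)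
    (h0 : v a b = 0) : UU ((pm (Equiv.swap a b) : Mat r S) * v * (pm (Equiv.swap a b) : Mat r S)) := by
  refine ⟨fun i j hij => ?_, fun i => ?_⟩
  · rw [swap_conj_apply]
    rcases swap_lt hab hij with h | ⟨rfl, rfl⟩
    · exact hv.1 _ _ h
    · rw [Equiv.swap_apply_right, Equiv.swap_apply_left, h0]
  · rw [swap_conj_apply, hv.2]

/-- The new right factor after the letter `xx a b z * pm (swap a b)`. -/
def pushV (a b : Fin r) (z : S) (v : Mat r S) : Mat r S :=
  (pm (Equiv.swap a b) : Mat r S) * (xx a b (-(v a b + z)) * v * xx a b z) * pm (Equiv.swap a b)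

theorem pushV_map (a b : Fin r) (z : S) (v : Mat r S) (f : S →+* T) :
    (pushV a b z v).map f = pushV a b (f z) (v.map f) := by
  rw [pushV, pushV, Matrix.map_mul, Matrix.map_mul, Matrix.map_mul, Matrix.map_mul, pm_map,
    xx_map, xx_map, map_neg, map_add, map_apply]

theorem uu_pushV {a b : Fin r} (hab : (b : ℕ) = a + 1) {v : Mat r S} (hv : UU v) (z : S) :
    UU (pushV a b z v) := by
  have hlt : a < b := by rw [Fin.lt_def]; omega
  refine uu_swap hab (((uu_xx hlt _).mul hv).mul (uu_xx hlt _)) ?_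
  rw [mul_xx_apply, if_pos rfl, xx_mul_apply, if_pos rfl, xx_mul_apply, if_pos rfl, hv.2 b,
    hv.1 b a hlt, hv.2 a]
  ring

theorem push_eq {a b : Fin r} (hab : (b : ℕ) = a + 1) (z : S) (v : Mat r S) :
    v * (xx a b z * pm (Equiv.swap a b)) =
      xx a b (v a b + z) * pm (Equiv.swap a b) * pushV a b z v := by
  have hne : a ≠ b := fun h => by rw [h] at hab; omega
  rw [pushV]
  have h1 : xx a b (v a b + z) * pm (Equiv.swap a b) *
      ((pm (Equiv.swap a b) : Mat r S) * (xx a b (-(v a b + z)) * v * xx a b z) *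
        pm (Equiv.swap a b)) = xx a b (v a b + z) * (pm (Equiv.swap a b) * pm (Equiv.swap a b)) *
        (xx a b (-(v a b + z)) * v * xx a b z) * pm (Equiv.swap a b) := by
    simp only [mul_assoc]
  rw [h1, pm_swap_sq, mul_one]
  have h2 : xx a b (v a b + z) * (xx a b (-(v a b + z)) * v * xx a b z) *
      (pm (Equiv.swap a b) : Mat r S) =
      (xx a b (v a b + z) * xx a b (-(v a b + z))) * v * (xx a b z * pm (Equiv.swap a b)) := by
    simp only [mul_assoc]
  rw [h2, xx_mul_xx hne, add_neg_cancel, xx_zero, one_mul]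

theorem Kup.xx_mul {κ : Fin r → ℕ} {l : ℕ → S} {M : Mat r S} (hM : Kup κ l M) {a b : Fin r}
    (h : κ a < κ b) (z : S) : Kup κ l (xx a b z * M) := by
  have hne : a ≠ b := fun h' => by rw [h'] at h; exact lt_irrefl _ h
  refine ⟨fun i => ?_, fun i j hij hκ => ?_⟩
  · rw [xx_mul_apply, hM.1]
    split_ifs with h1
    · rw [h1, hM.2 b a hne.symm (not_lt.2 h.le), mul_zero, add_zero]
    · rw [add_zero]
  · rw [xx_mul_apply, hM.2 i j hij hκ, zero_add]
    split_ifs with h1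
    · subst h1
      by_cases hbj : b = j
      · rw [← hbj] at hκ
        exact absurd h hκ
      · rw [hM.2 b j hbj (fun h' => hκ (h.trans h')), mul_zero]
    · rfl

theorem Kup.mul_xx {κ : Fin r → ℕ} {l : ℕ → S} {M : Mat r S} (hM : Kup κ l M) {a b : Fin r}
    (h : κ a < κ b) (z : S) : Kup κ l (M * xx a b z) := by
  have hne : a ≠ b := fun h' => by rw [h'] at h; exact lt_irrefl _ h
  refine ⟨fun i => ?_, fun i j hij hκ => ?_⟩
  · rw [mul_xx_apply, hM.1]
    split_ifs with h1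
    · rw [h1, hM.2 b a hne.symm (not_lt.2 h.le), zero_mul, add_zero]
    · rw [add_zero]
  · rw [mul_xx_apply, hM.2 i j hij hκ, zero_add]
    split_ifs with h1
    · subst h1
      by_cases hia : i = a
      · rw [hia] at hκ
        exact absurd h hκ
      · rw [hM.2 i a hia (fun h' => hκ (h'.trans h)), zero_mul]
    · rfl

theorem Kup.swap {κ : Fin r → ℕ} {l : ℕ → S} {M : Mat r S} (hM : Kup κ l M) (a b : Fin r) :
    Kup (κ ∘ Equiv.swap a b) l
      ((pm (Equiv.swap a b) : Mat r S) * M * (pm (Equiv.swap a b) : Mat r S)) := by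
  refine ⟨fun i => ?_, fun i j hij hκ => ?_⟩
  · rw [swap_conj_apply, hM.1]
    rfl
  · rw [swap_conj_apply]
    exact hM.2 _ _ (fun h => hij ((Equiv.swap a b).injective h)) hκ

theorem Kup.map {κ : Fin r → ℕ} {l : ℕ → S} {M : Mat r S} (hM : Kup κ l M) (f : S →+* T) :
    Kup κ (fun j => f (l j)) (M.map f) :=
  ⟨fun i => by rw [map_apply, hM.1], fun i j h h' => by rw [map_apply, hM.2 i j h h', map_zero]⟩

end general

variable {R A : Type} [CommRing R] [CommRing A] {φ : R →+* ℂ} {ι : R →+* A} {ψ : A →+* ℂ} {r : ℕ}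

/-- One step: from the state `(w, v₀)` to `(w', v₀')` through an element of the family `F`; the
units on the edges may be lifted arbitrarily. -/
def Step (ι : R →+* A) (ψ : A →+* ℂ) (w : Equiv.Perm (Fin r)) (v₀ : Mat r ℂ) (F : Mat r A → Prop)
    (w' : Equiv.Perm (Fin r)) (v₀' : Mat r ℂ) : Prop :=
  ∃ (J : Type) (_ : Fintype J) (s t : J → Fin r) (y : J → ℂˣ) (ε : Fin r → Rˣ),
    ∀ v : Mat r A, UU v → v.map ψ = v₀ → ∀ z : J → Aˣ, (∀ j, ψ (z j) = y j) →
      ∃ g, F g ∧ ∃ b v' : Mat r A, UpT b ∧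
        (∀ i, b i i = ι (ε i) * ((∏ j, z j ^ eb (s j) (t j) i : Aˣ) : A)) ∧
        UU v' ∧ v'.map ψ = v₀' ∧ (pm w : Mat r A) * v * g = b * pm w' * v'

theorem Step.mono {w w' : Equiv.Perm (Fin r)} {v₀ v₀' : Mat r ℂ} {F F' : Mat r A → Prop}
    (h : Step ι ψ w v₀ F w' v₀') (hF : ∀ g, F g → F' g) : Step ι ψ w v₀ F' w' v₀' := by
  obtain ⟨J, hJ, s, t, y, ε, h⟩ := h
  refine ⟨J, hJ, s, t, y, ε, fun v hv hv0 z hz => ?_⟩
  obtain ⟨g, hg, h'⟩ := h v hv hv0 z hz
  exact ⟨g, hF g hg, h'⟩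

theorem Step.comp {w w' w'' : Equiv.Perm (Fin r)} {v₀ v₀' v₀'' : Mat r ℂ} {F F' : Mat r A → Prop}
    (h : Step ι ψ w v₀ F w' v₀') (h' : Step ι ψ w' v₀' F' w'' v₀'') :
    Step ι ψ w v₀ (fun g => ∃ g₁ g₂, F g₁ ∧ F' g₂ ∧ g = g₁ * g₂) w'' v₀'' := by
  obtain ⟨J, hJ, s, t, y, ε, h⟩ := h
  obtain ⟨J', hJ', s', t', y', ε', h'⟩ := h'
  refine ⟨J ⊕ J', inferInstance, Sum.elim s s', Sum.elim t t', Sum.elim y y',
    fun i => ε i * ε' i, fun v hv hv0 z hz => ?_⟩
  obtain ⟨g, hg, b, v', hb, hbd, hv', hv0', he⟩ := h v hv hv0 (fun j => z (Sum.inl j)) fun j =>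
    hz (Sum.inl j)
  obtain ⟨g', hg', b', v'', hb', hbd', hv'', hv0'', he'⟩ := h' v' hv' hv0'
    (fun j => z (Sum.inr j)) fun j => hz (Sum.inr j)
  refine ⟨g * g', ⟨g, g', hg, hg', rfl⟩, b * b', v'', hb.mul hb', fun i => ?_, hv'', hv0'', ?_⟩
  · rw [hb.mul_diag hb', hbd, hbd', Fintype.prod_sum_type]
    simp only [Sum.elim_inl, Sum.elim_inr, Units.val_mul, map_mul]
    ring
  · rw [← mul_assoc, he, mul_assoc b, mul_assoc b, he']
    simp only [mul_assoc]

end Vale.Agent.P002L
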