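import Vale.Agent.P002L.L2Step

/-!
# P002, genus 0, one regular class: the class step
-/

namespace Vale.Agent.P002L

open Matrix Vale.Agent.P002R

variable {R A : Type} [CommRing R] [CommRing A] {φ : R →+* ℂ} {ι : R →+* A} {ψ : A →+* ℂ} {r : ℕ}

theorem letter_step (hL : Lifting φ ι ψ) {a b : Fin r} (hab : (b : ℕ) = a + 1)
    (w : Equiv.Perm (Fin r)) (v₀ : Mat r ℂ) (hv₀ : UU v₀) (ζ₀ : ℂ) :
    ∃ (w' : Equiv.Perm (Fin r)) (v₀' : Mat r ℂ), UU v₀' ∧ Step ι ψ w v₀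
      (fun g => ∃ ζ, ψ ζ = ζ₀ ∧ g = xx a b ζ * pm (Equiv.swap a b)) w' v₀' := by
  have hne : a ≠ b := fun h => by rw [h] at hab; omega
  have hlt : a < b := by rw [Fin.lt_def]; omega
  rcases lt_or_gt_of_ne (fun h => hne (w.injective h) : w a ≠ w b) with hw | hw
  · refine ⟨w * Equiv.swap a b, pushV a b ζ₀ v₀, uu_pushV hab hv₀ ζ₀, PEmpty, inferInstance,
      PEmpty.elim, PEmpty.elim, PEmpty.elim, 1, fun v hv hv0 z _ => ?_⟩
    obtain ⟨ζ, hζ⟩ := hL.surj ζ₀
    refine ⟨_, ⟨ζ, hζ, rfl⟩, xx (w a) (w b) (v a b + ζ), pushV a b ζ v, (uu_xx hw _).1, fun i => ?_,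
      uu_pushV hab hv ζ, ?_, ?_⟩
    · rw [(uu_xx hw _).2, Finset.univ_eq_empty, Finset.prod_empty, Pi.one_apply]
      simp
    · rw [pushV_map, hζ, hv0]
    · rw [mul_assoc, push_eq hab, ← mul_assoc, ← mul_assoc, pm_xx, mul_assoc (xx _ _ _),
        pm_mul_pm]
  · by_cases hy : v₀ a b + ζ₀ = 0
    · refine ⟨w * Equiv.swap a b, pushV a b ζ₀ v₀, uu_pushV hab hv₀ ζ₀, PEmpty, inferInstance,
        PEmpty.elim, PEmpty.elim, PEmpty.elim, 1, fun v hv hv0 z _ => ?_⟩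
      have h1 : ψ (v a b) = v₀ a b := by rw [← hv0, map_apply]
      have hζ : ψ (-v a b) = ζ₀ := by
        rw [map_neg, h1]
        exact (eq_neg_of_add_eq_zero_right hy).symm
      refine ⟨_, ⟨-v a b, hζ, rfl⟩, 1, pushV a b (-v a b) v, upT_one, fun i => ?_,
        uu_pushV hab hv _, ?_, ?_⟩
      · rw [one_apply_eq, Finset.univ_eq_empty, Finset.prod_empty, Pi.one_apply]
        simp
      · rw [pushV_map, hζ, hv0]
      · rw [mul_assoc, push_eq hab, add_neg_cancel, xx_zero, one_mul, one_mul, ← mul_assoc,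
          pm_mul_pm]
    · refine ⟨w, xx a b (v₀ a b + ζ₀)⁻¹ * pushV a b ζ₀ v₀, (uu_xx hlt _).mul (uu_pushV hab hv₀ ζ₀),
        Unit, inferInstance, fun _ => w a, fun _ => w b, fun _ => Units.mk0 _ hy,
        fun i => if i = w b then -1 else 1, fun v hv hv0 z hz => ?_⟩
      have h1 : ψ (v a b) = v₀ a b := by rw [← hv0, map_apply]
      have hz' : ψ (z ()) = v₀ a b + ζ₀ := hz ()
      have hzi : ψ (((z ())⁻¹ : Aˣ) : A) = (v₀ a b + ζ₀)⁻¹ := by
        have h2 : ψ (((z ())⁻¹ : Aˣ) : A) * ψ (z ()) = 1 := by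
          rw [← map_mul, Units.inv_mul, map_one]
        rw [hz'] at h2
        exact eq_inv_of_mul_eq_one_left h2
      have hζ : ψ (z () - v a b) = ζ₀ := by
        rw [map_sub, hz', h1]
        ring
      refine ⟨_, ⟨z () - v a b, hζ, rfl⟩, xx (w b) (w a) (((z ())⁻¹ : Aˣ) : A) * dd (w a) (w b) (z ()),
        xx a b (((z ())⁻¹ : Aˣ) : A) * pushV a b (z () - v a b) v, (uu_xx hw _).1.mul (upT_diagonal _),
        fun i => ?_, (uu_xx hlt _).mul (uu_pushV hab hv _), ?_, ?_⟩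
      · have h5 : UpT (dd (w a) (w b) (z ())) := upT_diagonal _
        rw [(uu_xx hw _).1.mul_diag h5, (uu_xx hw _).2, one_mul, dd,
          diagonal_apply_eq, Fintype.prod_unique, eb]
        have hne' : w b ≠ w a := fun h => hne (w.injective h).symm
        by_cases hi : i = w a
        · subst hi
          simp [hne'.symm]
        · by_cases hi' : i = w b
          · subst hi'
            simp [hne']
          · simp [hi, hi']
      · rw [Matrix.map_mul, xx_map, pushV_map, hζ, hv0, hzi]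
      · rw [mul_assoc, push_eq hab, add_sub_cancel, stay_id hne]
        have h3 : (pm w : Mat r A) * (xx b a (((z ())⁻¹ : Aˣ) : A) * dd a b (z ()) *
            xx a b (((z ())⁻¹ : Aˣ) : A) * pushV a b (z () - v a b) v) =
            (pm w * xx b a (((z ())⁻¹ : Aˣ) : A)) * dd a b (z ()) *
              (xx a b (((z ())⁻¹ : Aˣ) : A) * pushV a b (z () - v a b) v) := by
          simp only [mul_assoc]
        rw [h3, pm_xx, mul_assoc (xx _ _ _), pm_dd]
        simp only [mul_assoc]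

/-- The family of products `u * M` with prescribed complex point. -/
def FamUM (ι : R →+* A) (ψ : A →+* ℂ) (κ : Fin r → ℕ) (l : ℕ → Rˣ) (u₀ M₀ : Mat r ℂ)
    (g : Mat r A) : Prop :=
  ∃ u M : Mat r A, UU u ∧ u.map ψ = u₀ ∧ Kup κ (fun j => ι (l j)) M ∧ M.map ψ = M₀ ∧ g = u * M

theorem exists_lift_uu (hL : Lifting φ ι ψ) {u₀ : Mat r ℂ} (hu₀ : UU u₀) :
    ∃ u : Mat r A, UU u ∧ u.map ψ = u₀ := by
  choose s hs using hL.surj
  refine ⟨Matrix.of fun i j => if i = j then 1 else if i < j then s (u₀ i j) else 0,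
    ⟨fun i j h => ?_, fun i => ?_⟩, ?_⟩
  · rw [of_apply, if_neg h.ne', if_neg h.not_gt]
  · rw [of_apply, if_pos rfl]
  · ext i j
    rw [map_apply, of_apply]
    split_ifs with h1 h2
    · rw [map_one, ← h1, hu₀.2]
    · exact hs _
    · rw [map_zero, hu₀.1 i j (lt_of_le_of_ne (not_lt.1 h2) (Ne.symm h1))]

theorem exists_lift_kup (hL : Lifting φ ι ψ) {κ : Fin r → ℕ} {l : ℕ → Rˣ} {M₀ : Mat r ℂ}
    (hM₀ : Kup κ (fun j => φ (l j)) M₀) :
    ∃ M : Mat r A, Kup κ (fun j => ι (l j)) M ∧ M.map ψ = M₀ := by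
  choose s hs using hL.surj
  refine ⟨Matrix.of fun i j => if i = j then ι (l (κ i)) else if κ i < κ j then s (M₀ i j) else 0,
    ⟨fun i => ?_, fun i j h h' => ?_⟩, ?_⟩
  · rw [of_apply, if_pos rfl]
  · rw [of_apply, if_neg h, if_neg h']
  · ext i j
    rw [map_apply, of_apply]
    split_ifs with h1 h2
    · rw [hL.comp, ← h1, hM₀.1]
    · exact hs _
    · rw [map_zero, hM₀.2 i j h1 h2]

theorem base_step (hL : Lifting φ ι ψ) {κ : Fin r → ℕ} (hκ : Monotone κ) (l : ℕ → Rˣ)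
    (w : Equiv.Perm (Fin r)) (v₀ : Mat r ℂ) (hv₀ : UU v₀) {u₀ M₀ : Mat r ℂ} (hu₀ : UU u₀)
    (hM₀ : Kup κ (fun j => φ (l j)) M₀) :
    ∃ (w' : Equiv.Perm (Fin r)) (v₀' : Mat r ℂ), UU v₀' ∧
      Step ι ψ w v₀ (FamUM ι ψ κ l u₀ M₀) w' v₀' := by
  have hup : ∀ {S : Type} [CommRing S] (l' : ℕ → S) (M : Mat r S), Kup κ l' M → UpT M := by
    intro S _ l' M hM i j h
    exact hM.2 i j h.ne' (not_lt.2 (hκ h.le))
  have key : ∀ {S : Type} [CommRing S] (l' : ℕ → Sˣ) (v u M : Mat r S), UU v → UU u →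
      Kup κ (fun j => (l' j : S)) M →
      UU (diagonal (fun i => (((l' (κ i))⁻¹ : Sˣ) : S)) * (v * (u * M))) := by
    intro S _ l' v u M hv hu hM
    have h1 : UpT (v * (u * M)) := hv.1.mul (hu.1.mul (hup _ _ hM))
    refine ⟨(upT_diagonal _).mul h1, fun i => ?_⟩
    rw [(upT_diagonal _).mul_diag h1, diagonal_apply_eq, hv.1.mul_diag (hu.1.mul (hup _ _ hM)),
      hu.1.mul_diag (hup _ _ hM), hv.2, hu.2, hM.1, one_mul, one_mul, Units.inv_mul]
  refine ⟨w, diagonal (fun i => (((Units.map (φ : R →* ℂ) (l (κ i)))⁻¹ : ℂˣ) : ℂ)) *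
    (v₀ * (u₀ * M₀)), key (fun j => Units.map (φ : R →* ℂ) (l j)) v₀ u₀ M₀ hv₀ hu₀ hM₀,
    PEmpty, inferInstance, PEmpty.elim, PEmpty.elim, PEmpty.elim, fun i => l (κ (w.symm i)),
    fun v hv hv0 z _ => ?_⟩
  obtain ⟨u, hu, hu0⟩ := exists_lift_uu hL hu₀
  obtain ⟨M, hM, hM0⟩ := exists_lift_kup hL hM₀
  refine ⟨u * M, ⟨u, M, hu, hu0, hM, hM0, rfl⟩, diagonal fun i => ι (l (κ (w.symm i))),
    diagonal (fun i => (((Units.map (ι : R →* A) (l (κ i)))⁻¹ : Aˣ) : A)) * (v * (u * M)),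
    upT_diagonal _, fun i => ?_, key (fun j => Units.map (ι : R →* A) (l j)) v u M hv hu hM,
    ?_, ?_⟩
  · rw [diagonal_apply_eq, Finset.univ_eq_empty, Finset.prod_empty, Units.val_one, mul_one]
  · rw [Matrix.map_mul, Matrix.map_mul, Matrix.map_mul, hv0, hu0, hM0]
    congr 1
    rw [diagonal_map (map_zero ψ)]
    congr 1
    funext i
    rw [← map_inv, ← map_inv]
    exact hL.comp _
  · have h1 : (pm w : Mat r A) * diagonal (fun i => ι (l (κ i))) =
        diagonal (fun i => ι (l (κ (w.symm i)))) * pm w := by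
      refine pm_comm fun i j => ?_
      rw [diagonal_apply, diagonal_apply, Equiv.symm_apply_apply]
      simp only [EmbeddingLike.apply_eq_iff_eq]
    rw [← h1]
    have h2 : diagonal (fun i => ι (l (κ i))) *
        diagonal (fun i => (((Units.map (ι : R →* A) (l (κ i)))⁻¹ : Aˣ) : A)) = 1 := by
      rw [diagonal_mul_diagonal, ← diagonal_one]
      congr 1
      funext i
      exact (Units.map (ι : R →* A) (l (κ i))).mul_inv
    have h3 : (pm w : Mat r A) * diagonal (fun i => ι (l (κ i))) *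
        (diagonal (fun i => (((Units.map (ι : R →* A) (l (κ i)))⁻¹ : Aˣ) : A)) * (v * (u * M))) =
        pm w * (diagonal (fun i => ι (l (κ i))) *
        diagonal (fun i => (((Units.map (ι : R →* A) (l (κ i)))⁻¹ : Aˣ) : A))) * (v * (u * M)) := by
      simp only [mul_assoc]
    rw [h3, h2, mul_one, mul_assoc]

end Vale.Agent.P002L
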