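import Vale.Agent.P002L.L3Class

/-!
# P002, genus 0, one regular class: the class step
-/

namespace Vale.Agent.P002L

open Matrix Vale.Agent.P002R

variable {R A : Type} [CommRing R] [CommRing A] {φ : R →+* ℂ} {ι : R →+* A} {ψ : A →+* ℂ} {r : ℕ}

theorem exists_descent {κ : Fin r → ℕ} (h : ¬ Monotone κ) :
    ∃ a b : Fin r, (b : ℕ) = a + 1 ∧ κ b < κ a := by
  cases r with
  | zero => exact absurd (fun i => i.elim0) h
  | succ n =>
    rw [Fin.monotone_iff_le_succ] at h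
    push Not at h
    obtain ⟨i, hi⟩ := h
    exact ⟨i.castSucc, i.succ, by simp, hi⟩

theorem measure_lt {κ : Fin r → ℕ} {a b : Fin r} (hab : (b : ℕ) = a + 1) (h : κ b < κ a) :
    ∑ i : Fin r, (r - i) * (κ ∘ Equiv.swap a b) i < ∑ i : Fin r, (r - i) * κ i := by
  have hne : a ≠ b := fun h => by rw [h] at hab; omega
  have key : ∀ f : Fin r → ℕ, ∑ i, f i = f a + (f b + ∑ i ∈ (Finset.univ.erase a).erase b, f i) := by
    intro f
    rw [Finset.add_sum_erase _ _ (Finset.mem_erase.2 ⟨hne.symm, Finset.mem_univ _⟩),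
      Finset.add_sum_erase _ _ (Finset.mem_univ _)]
  rw [key, key (fun i => (r - i) * κ i)]
  have h1 : ∑ i ∈ (Finset.univ.erase a).erase b, (r - i) * (κ ∘ Equiv.swap a b) i =
      ∑ i ∈ (Finset.univ.erase a).erase b, (r - i) * κ i := by
    refine Finset.sum_congr rfl fun i hi => ?_
    have h2 := (Finset.mem_erase.1 hi).1
    have h3 := (Finset.mem_erase.1 (Finset.mem_erase.1 hi).2).1
    rw [Function.comp_apply, Equiv.swap_apply_of_ne_of_ne h3 h2]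
  rw [h1, ← add_assoc, ← add_assoc]
  refine Nat.add_lt_add_right ?_ _
  simp only [Function.comp_apply, Equiv.swap_apply_left, Equiv.swap_apply_right]
  have h4 : r - (a : ℕ) = (r - (b : ℕ)) + 1 := by
    have := b.2
    omega
  rw [h4, add_mul, add_mul, one_mul, one_mul]
  nlinarith

theorem class_step_aux (hL : Lifting φ ι ψ) (l : ℕ → Rˣ) : ∀ (N : ℕ) (κ : Fin r → ℕ),
    ∑ i : Fin r, (r - i) * κ i = N → ∀ (w : Equiv.Perm (Fin r)) (v₀ : Mat r ℂ), UU v₀ →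
    ∀ u₀ M₀ : Mat r ℂ, UU u₀ → Kup κ (fun j => φ (l j)) M₀ →
    ∃ (w' : Equiv.Perm (Fin r)) (v₀' : Mat r ℂ), UU v₀' ∧
      Step ι ψ w v₀ (FamUM ι ψ κ l u₀ M₀) w' v₀' := by
  intro N
  induction N using Nat.strong_induction_on with
  | _ N ih =>
  intro κ hN w v₀ hv₀ u₀ M₀ hu₀ hM₀
  by_cases hκ : Monotone κ
  · exact base_step hL hκ l w v₀ hv₀ hu₀ hM₀
  obtain ⟨a, b, hab, hκab⟩ := exists_descent hκ
  have hne : a ≠ b := fun h => by rw [h] at hab; omega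
  have hlt : a < b := by rw [Fin.lt_def]; omega
  have hκ' : (κ ∘ Equiv.swap a b) a < (κ ∘ Equiv.swap a b) b := by
    rw [Function.comp_apply, Function.comp_apply, Equiv.swap_apply_left, Equiv.swap_apply_right]
    exact hκab
  have hκκ : (κ ∘ Equiv.swap a b) ∘ Equiv.swap a b = κ := by
    funext i
    rw [Function.comp_apply, Function.comp_apply, Equiv.swap_apply_self]
  -- the data over the complex numbers
  obtain ⟨u₁, hu₁⟩ : ∃ u₁ : Mat r ℂ, u₁ = xx a b (-u₀ a b) * u₀ := ⟨_, rfl⟩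
  have hu₁U : UU u₁ := by rw [hu₁]; exact (uu_xx hlt _).mul hu₀
  have hu₁0 : u₁ a b = 0 := by
    rw [hu₁, xx_mul_apply, if_pos rfl, hu₀.2 b]
    ring
  obtain ⟨u', hu'⟩ : ∃ u' : Mat r ℂ, u' = pm (Equiv.swap a b) * u₁ * pm (Equiv.swap a b) :=
    ⟨_, rfl⟩
  have hu'U : UU u' := by rw [hu']; exact uu_swap hab hu₁U hu₁0
  have hu'0 : u' a b = 0 := by
    rw [hu', swap_conj_apply, Equiv.swap_apply_left, Equiv.swap_apply_right, hu₁U.1 b a hlt]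
  have hM' : Kup (κ ∘ Equiv.swap a b) (fun j => φ (l j))
      (pm (Equiv.swap a b) * M₀ * pm (Equiv.swap a b)) := hM₀.swap a b
  -- the three steps
  obtain ⟨w₁, v₁, hv₁, hs₁⟩ := letter_step hL hab w v₀ hv₀ (u₀ a b)
  obtain ⟨w₂, v₂, hv₂, hs₂⟩ := ih _ (by rw [← hN]; exact measure_lt hab hκab)
    (κ ∘ Equiv.swap a b) rfl w₁ v₁ hv₁ u' _ hu'U hM'
  obtain ⟨w₃, v₃, hv₃, hs₃⟩ := letter_step hL hab w₂ v₂ hv₂ 0
  refine ⟨w₃, v₃, hv₃, ((hs₁.comp hs₂).comp hs₃).mono ?_⟩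
  rintro g ⟨g', g₃, ⟨g₁, g₂, ⟨ζ, hζ, rfl⟩, ⟨u, M, hu, hu0, hM, hM0, rfl⟩, rfl⟩, ⟨ζ', hζ', rfl⟩, rfl⟩
  obtain ⟨η, hη⟩ : ∃ η, η = u a b := ⟨_, rfl⟩
  have hη0 : ψ η = 0 := by rw [hη, ← hu'0, ← hu0, map_apply]
  have hun : UU (u * xx a b (-η)) := hu.mul (uu_xx hlt _)
  have hun0 : (u * xx a b (-η)) a b = 0 := by
    rw [mul_xx_apply, if_pos rfl, hu.2 a, hη]
    ring
  refine ⟨xx a b ζ * (pm (Equiv.swap a b) * (u * xx a b (-η)) * pm (Equiv.swap a b)),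
    pm (Equiv.swap a b) * (xx a b η * M * xx a b ζ') * pm (Equiv.swap a b),
    (uu_xx hlt _).mul (uu_swap hab hun hun0), ?_, ?_, ?_, ?_⟩
  · rw [Matrix.map_mul, Matrix.map_mul, Matrix.map_mul, Matrix.map_mul, xx_map, xx_map, pm_map,
      hζ, map_neg, hη0, neg_zero, xx_zero, mul_one, hu0, hu']
    have h1 : (pm (Equiv.swap a b) : Mat r ℂ) * (pm (Equiv.swap a b) * u₁ *
        pm (Equiv.swap a b)) * pm (Equiv.swap a b) = (pm (Equiv.swap a b) * pm (Equiv.swap a b)) *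
        u₁ * (pm (Equiv.swap a b) * pm (Equiv.swap a b)) := by
      simp only [mul_assoc]
    rw [h1, pm_swap_sq, one_mul, mul_one, hu₁, ← mul_assoc, xx_mul_xx hne, add_neg_cancel,
      xx_zero, one_mul]
  · have h2 := ((hM.xx_mul hκ' η).mul_xx hκ' ζ').swap a b
    rw [hκκ] at h2
    exact h2
  · rw [Matrix.map_mul, Matrix.map_mul, Matrix.map_mul, Matrix.map_mul, xx_map, xx_map, pm_map,
      hη0, hζ', xx_zero, one_mul, mul_one, hM0]
    have h1 : (pm (Equiv.swap a b) : Mat r ℂ) * (pm (Equiv.swap a b) * M₀ *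
        pm (Equiv.swap a b)) * pm (Equiv.swap a b) = (pm (Equiv.swap a b) * pm (Equiv.swap a b)) *
        M₀ * (pm (Equiv.swap a b) * pm (Equiv.swap a b)) := by
      simp only [mul_assoc]
    rw [h1, pm_swap_sq, one_mul, mul_one]
  · have h3 : xx a b ζ * (pm (Equiv.swap a b) * (u * xx a b (-η)) * pm (Equiv.swap a b)) *
        ((pm (Equiv.swap a b) : Mat r A) * (xx a b η * M * xx a b ζ') * pm (Equiv.swap a b)) =
        xx a b ζ * pm (Equiv.swap a b) * (u * (xx a b (-η) *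
        ((pm (Equiv.swap a b) * pm (Equiv.swap a b)) * xx a b η)) * M) *
        (xx a b ζ' * pm (Equiv.swap a b)) := by
      simp only [mul_assoc]
    rw [h3, pm_swap_sq, one_mul, xx_mul_xx hne, neg_add_cancel, xx_zero, mul_one]

/-- The class step. -/
theorem class_step (hL : Lifting φ ι ψ) (κ : Fin r → ℕ) (l : ℕ → Rˣ) (w : Equiv.Perm (Fin r))
    (v₀ : Mat r ℂ) (hv₀ : UU v₀) (u₀ M₀ c₀ : Mat r ℂ) (hu₀ : UU u₀)
    (hM₀ : Kup κ (fun j => φ (l j)) M₀) (hc : c₀ * u₀ = u₀ * M₀) :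
    ∃ (w' : Equiv.Perm (Fin r)) (v₀' : Mat r ℂ), UU v₀' ∧ Step ι ψ w v₀
      (fun c => ∃ u M : Mat r A, UU u ∧ Kup κ (fun j => ι (l j)) M ∧ c * u = u * M ∧
        c.map ψ = c₀) w' v₀' := by
  obtain ⟨w', v', hv', J, hJ, s, t, y, ε, h⟩ := class_step_aux hL l _ κ rfl w v₀ hv₀ u₀ M₀ hu₀ hM₀
  refine ⟨w', v' * u₀⁻¹, hv'.mul hu₀.inv, J, hJ, s, t, y, ε, fun v hv hv0 z hz => ?_⟩
  obtain ⟨g, ⟨u, M, hu, hu0, hM, hM0, rfl⟩, b, v₂, hb, hbd, hv₂, hv20, he⟩ := h v hv hv0 z hz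
  refine ⟨u * M * u⁻¹, ⟨u, M, hu, hM, ?_, ?_⟩, b, v₂ * u⁻¹, hb, hbd, hv₂.mul hu.inv, ?_, ?_⟩
  · rw [mul_assoc, hu.inv_mul, mul_one]
  · rw [Matrix.map_mul, Matrix.map_mul, hu.map_inv, hu0, hM0, ← hc, mul_assoc, hu₀.mul_inv, mul_one]
  · rw [Matrix.map_mul, hu.map_inv, hu0, hv20]
  · rw [← mul_assoc, he, mul_assoc]

end Vale.Agent.P002L
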