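import Vale.Agent.P002L.L0Defs
import Mathlib.Algebra.MonoidAlgebra.MapDomain
import Mathlib.Algebra.MonoidAlgebra.Lift

/-!
# P002, genus 0, one regular class: the ring of exponents
-/

namespace Vale.Agent.P002L

open Matrix Vale.Agent.P002R

section

variable {G : Type} [CommGroup G]

/-- Evaluation of the group ring. -/
noncomputable def evG {S T : Type*} [CommRing S] [CommRing T] (α : S →+* T) (χ : G →* T) :
    MonoidAlgebra S G →+* T :=
  MonoidAlgebra.liftNCRingHom α χ fun _ _ => Commute.all _ _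

theorem evG_single {S T : Type*} [CommRing S] [CommRing T] (α : S →+* T) (χ : G →* T) (g : G)
    (s : S) : evG α χ (MonoidAlgebra.single g s) = α s * χ g :=
  MonoidAlgebra.liftNCRingHom_single α χ _ g s

theorem evG_map {S T : Type*} [CommRing S] [CommRing T] (α : S →+* T) (χ : G →* T)
    (a : MonoidAlgebra S G) :
    evG (RingHom.id T) χ (MonoidAlgebra.mapRingHom G α a) = evG α χ a := by
  have h : (evG (RingHom.id T) χ).comp (MonoidAlgebra.mapRingHom G α) = evG α χ := by
    refine MonoidAlgebra.ringHom_ext (fun s => ?_) fun g => ?_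
    · rw [RingHom.comp_apply, MonoidAlgebra.mapRingHom_single, evG_single, evG_single]
      rfl
    · rw [RingHom.comp_apply, MonoidAlgebra.mapRingHom_single, evG_single, evG_single, map_one]
      rfl
  exact RingHom.congr_fun h a

theorem comp_evG {S T U : Type*} [CommRing S] [CommRing T] [CommRing U] (α : S →+* T)
    (β : T →+* U) (χ : G →* T) (a : MonoidAlgebra S G) :
    β (evG α χ a) = evG (β.comp α) ((β : T →* U).comp χ) a := by
  have h : β.comp (evG α χ) = evG (β.comp α) ((β : T →* U).comp χ) := by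
    refine MonoidAlgebra.ringHom_ext (fun s => ?_) fun g => ?_
    · rw [RingHom.comp_apply, evG_single, evG_single, map_mul]
      rfl
    · rw [RingHom.comp_apply, evG_single, evG_single, map_mul]
      rfl
  exact RingHom.congr_fun h a

theorem evG_eq_sum {T : Type*} [CommRing T] (χ : G →* T) (a : MonoidAlgebra T G) :
    evG (RingHom.id T) χ a = a.coeff.sum fun g s => s * χ g := by
  conv_lhs => rw [← MonoidAlgebra.sum_coeff_single a]
  rw [map_finsuppSum]
  refine Finsupp.sum_congr fun g _ => ?_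
  rw [evG_single]
  rfl

end

theorem evG_eval₂ {G : Type} [CommGroup G] {σ : Type} (χ : G →* ℂ) (a : σ → MonoidAlgebra ℂ G)
    (f : MvPolynomial σ ℂ) :
    evG (RingHom.id ℂ) χ (MvPolynomial.eval₂ (MonoidAlgebra.singleOneRingHom) a f) =
      MvPolynomial.eval (fun i => evG (RingHom.id ℂ) χ (a i)) f := by
  rw [MvPolynomial.eval₂_comp_left]
  have h : (evG (RingHom.id ℂ) χ).comp
      (MonoidAlgebra.singleOneRingHom : ℂ →+* MonoidAlgebra ℂ G) = RingHom.id ℂ := by
    refine RingHom.ext fun s => ?_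
    change evG _ _ (MonoidAlgebra.single 1 s) = s
    rw [evG_single, map_one, mul_one]
    rfl
  rw [h]
  rfl

/-- The free abelian group on the nonzero complex numbers. -/
abbrev FG : Type := Multiplicative (ℂˣ →₀ ℤ)

/-- The tautological character. -/
noncomputable def tautC : FG →* ℂˣ :=
  AddMonoidHom.toMultiplicativeLeft
    (Finsupp.liftAddHom fun c : ℂˣ => (zmultiplesHom (Additive ℂˣ) (Additive.ofMul c)))

theorem tautC_single (c : ℂˣ) : tautC (Multiplicative.ofAdd (Finsupp.single c 1)) = c := by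
  change ((Finsupp.liftAddHom fun c : ℂˣ => (zmultiplesHom (Additive ℂˣ) (Additive.ofMul c)))
    (Finsupp.single c (1 : ℤ))).toMul = c
  rw [Finsupp.liftAddHom_apply_single, zmultiplesHom_apply, one_zsmul]
  rfl

/-- The character given by a linear form and a unit. -/
noncomputable def chL {R : Type} [CommRing R] (u : Rˣ) (l : (ℂˣ →₀ ℤ) →+ ℤ) : FG →* Rˣ :=
  (zpowersHom Rˣ u).comp (AddMonoidHom.toMultiplicative l)

theorem chL_apply {R : Type} [CommRing R] (u : Rˣ) (l : (ℂˣ →₀ ℤ) →+ ℤ) (g : ℂˣ →₀ ℤ) :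
    chL u l (Multiplicative.ofAdd g) = u ^ l g := rfl

theorem chL_apply' {R : Type} [CommRing R] (u : Rˣ) (l : (ℂˣ →₀ ℤ) →+ ℤ) (g : FG) :
    chL u l g = u ^ l g.toAdd := rfl

/-- Evaluation at a group element as a character of the dual group. -/
noncomputable def thG (v : ℂˣ) (g : FG) : Multiplicative ((ℂˣ →₀ ℤ) →+ ℤ) →* ℂ where
  toFun l := ((v ^ (l.toAdd g.toAdd) : ℂˣ) : ℂ)
  map_one' := by
    change ((v ^ (0 : ℤ) : ℂˣ) : ℂ) = 1
    rw [zpow_zero, Units.val_one]
  map_mul' l m := by
    change ((v ^ (l.toAdd g.toAdd + m.toAdd g.toAdd) : ℂˣ) : ℂ) = _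
    rw [_root_.zpow_add, Units.val_mul]

theorem thG_injective (v : ℂˣ) (hv : ∀ k : ℕ, 0 < k → v ^ k ≠ 1) :
    Function.Injective (thG v) := by
  intro g h hgh
  by_contra hne
  have h1 : ∃ c, g.toAdd c ≠ h.toAdd c := by
    by_contra h2
    push Not at h2
    exact hne (Multiplicative.toAdd.injective (Finsupp.ext h2))
  obtain ⟨c, hc⟩ := h1
  have h2 := DFunLike.congr_fun hgh (Multiplicative.ofAdd (Finsupp.applyAddHom c))
  have h3 : v ^ (g.toAdd c) = v ^ (h.toAdd c) := Units.ext h2
  have h4 : ¬ IsOfFinOrder v := by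
    rw [isOfFinOrder_iff_pow_eq_one]
    rintro ⟨k, hk, hk'⟩
    exact hv k hk hk'
  exact hc (injective_zpow_iff_not_isOfFinOrder.2 h4 h3)

/-- An element of the group ring which is killed by all characters with values in the powers
of a unit of infinite order is zero. -/
theorem eq_zero_of_chars (v : ℂˣ) (hv : ∀ k : ℕ, 0 < k → v ^ k ≠ 1) (F : MonoidAlgebra ℂ FG)
    (h : ∀ l : (ℂˣ →₀ ℤ) →+ ℤ, evG (RingHom.id ℂ) ((Units.coeHom ℂ).comp (chL v l)) F = 0) :
    F = 0 := by
  have h1 := (linearIndependent_monoidHom (Multiplicative ((ℂˣ →₀ ℤ) →+ ℤ)) ℂ).comp (thG v)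
    (thG_injective v hv)
  rw [linearIndependent_iff] at h1
  have h2 := h1 F.coeff (by
    funext l
    have h3 := h l.toAdd
    rw [evG_eq_sum] at h3
    rw [Finsupp.linearCombination_apply, Finsupp.sum, Finset.sum_apply]
    rw [Pi.zero_apply, ← h3, Finsupp.sum]
    refine Finset.sum_congr rfl fun g _ => ?_
    rfl)
  ext g
  rw [h2]
  rfl

theorem exists_lifting {R : Type} [CommRing R] (φ : R →+* ℂ) (hφ : Function.Injective φ) (u : Rˣ)
    (hu : ∀ k : ℕ, 0 < k → φ u ^ k ≠ 1) :
    ∃ (A : Type) (_ : CommRing A) (ι : R →+* A) (ψ : A →+* ℂ), Lifting φ ι ψ := by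
  refine ⟨MonoidAlgebra R FG, inferInstance, MonoidAlgebra.singleOneRingHom,
    evG φ ((Units.coeHom ℂ).comp tautC), ?_, hφ, ?_, ?_, ?_⟩
  · intro a
    change evG φ _ (MonoidAlgebra.single 1 a) = _
    rw [evG_single, map_one, mul_one]
  · intro c
    by_cases hc : c = 0
    · exact ⟨0, by rw [map_zero, hc]⟩
    · refine ⟨MonoidAlgebra.single (Multiplicative.ofAdd (Finsupp.single (Units.mk0 c hc) 1)) 1, ?_⟩
      rw [evG_single, map_one, one_mul, MonoidHom.comp_apply, tautC_single]
      rfl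
  · intro c
    refine ⟨(MonoidAlgebra.of R FG).toHomUnits (Multiplicative.ofAdd (Finsupp.single c 1)), ?_⟩
    change evG φ _ (MonoidAlgebra.single _ 1) = _
    rw [evG_single, map_one, one_mul, MonoidHom.comp_apply, tautC_single]
    rfl
  · intro σ f a h
    obtain ⟨v, hv⟩ : ∃ v : ℂˣ, v = Units.map (φ : R →* ℂ) u := ⟨_, rfl⟩
    have hv' : ∀ k : ℕ, 0 < k → v ^ k ≠ 1 := by
      intro k hk h1
      apply hu k hk
      have h2 := congrArg (fun w : ℂˣ => (w : ℂ)) h1
      rw [hv] at h2
      exact h2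
    have hF : MvPolynomial.eval₂ (MonoidAlgebra.singleOneRingHom : ℂ →+* MonoidAlgebra ℂ FG)
        (fun i => MonoidAlgebra.mapRingHom FG φ (a i)) f = 0 := by
      refine eq_zero_of_chars v hv' _ fun l => ?_
      have h1 := h (evG (RingHom.id R) ((Units.coeHom R).comp (chL u l))) (fun s => by
        change evG _ _ (MonoidAlgebra.single 1 s) = s
        rw [evG_single, map_one, mul_one]
        rfl)
      rw [evG_eval₂, ← h1]
      refine congrArg (fun w => MvPolynomial.eval w f) (funext fun i => ?_)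
      rw [evG_map, comp_evG]
      congr 2
      refine MonoidHom.ext fun g => ?_
      change ((chL v l g : ℂˣ) : ℂ) = φ ((chL u l g : Rˣ) : R)
      rw [hv, chL_apply', chL_apply', ← map_zpow]
      rfl
    have h2 := congrArg (evG (RingHom.id ℂ) ((Units.coeHom ℂ).comp tautC)) hF
    rw [evG_eval₂, map_zero] at h2
    rw [← h2]
    refine congrArg (fun w => MvPolynomial.eval w f) (funext fun i => ?_)
    rw [evG_map]

end Vale.Agent.P002L
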