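import Vale.Agent.P002L.L0Defs

/-!
# Endomorphisms with equal ranks of partial products are conjugate
-/

namespace Vale.Agent.P002L

open Module

section lin

variable {K : Type} [Field K]

/-- Relative complements of subspaces. -/
theorem exists_relCompl {V : Type} [AddCommGroup V] [Module K V] (a b : Submodule K V)
    (h : a ≤ b) : ∃ c : Submodule K V, c ≤ b ∧ a ⊓ c = ⊥ ∧ a ⊔ c = b := by
  obtain ⟨q, hq⟩ := Submodule.exists_isCompl a
  refine ⟨q ⊓ b, inf_le_right, ?_, ?_⟩
  · rw [← inf_assoc, hq.inf_eq_bot, bot_inf_eq]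
  · rw [← sup_inf_assoc_of_le q h, hq.sup_eq_top, top_inf_eq]

theorem finrank_ker_inf_le {V W : Type} [AddCommGroup V] [Module K V] [FiniteDimensional K V]
    [AddCommGroup W] [Module K W] [FiniteDimensional K W] (N : End K V) (N' : End K W)
    (T : LinearMap.range N ≃ₗ[K] LinearMap.range N')
    (hT : ∀ v : LinearMap.range N, (T ⟨N v, LinearMap.mem_range_self N v⟩ : W) = N' (T v)) :
    finrank K ↥(LinearMap.ker N ⊓ LinearMap.range N) ≤
      finrank K ↥(LinearMap.ker N' ⊓ LinearMap.range N') := by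
  have hmem : ∀ v : ↥(LinearMap.ker N ⊓ LinearMap.range N),
      ((T.toLinearMap.comp (Submodule.inclusion inf_le_right)) v : W) ∈
        LinearMap.ker N' ⊓ LinearMap.range N' := by
    intro v
    refine ⟨LinearMap.mem_ker.2 ?_, Subtype.property _⟩
    have h1 := hT (Submodule.inclusion inf_le_right v)
    have h2 : N ((Submodule.inclusion (inf_le_right : LinearMap.ker N ⊓ LinearMap.range N ≤
        LinearMap.range N) v : LinearMap.range N) : V) = 0 := LinearMap.mem_ker.1 v.2.1
    have h3 : (⟨N ((Submodule.inclusion (inf_le_right : LinearMap.ker N ⊓ LinearMap.range N ≤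
        LinearMap.range N) v : LinearMap.range N) : V), LinearMap.mem_range_self N _⟩ :
        LinearMap.range N) = 0 := Subtype.ext h2
    rw [h3, map_zero] at h1
    exact h1.symm
  refine LinearMap.finrank_le_finrank_of_injective
    (f := LinearMap.codRestrict (LinearMap.ker N' ⊓ LinearMap.range N')
      ((LinearMap.range N').subtype.comp
        (T.toLinearMap.comp (Submodule.inclusion inf_le_right))) hmem) ?_
  intro a b hab
  have h1 := congrArg Subtype.val hab
  have h2 : T (Submodule.inclusion inf_le_right a) = T (Submodule.inclusion inf_le_right b) :=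
    Subtype.ext h1
  exact Submodule.inclusion_injective _ (T.injective h2)

/-- Extension of an isomorphism from the image. -/
theorem extend_equiv {V W : Type} [AddCommGroup V] [Module K V] [FiniteDimensional K V]
    [AddCommGroup W] [Module K W] [FiniteDimensional K W] (N : End K V) (N' : End K W)
    (hd : finrank K V = finrank K W) (T : LinearMap.range N ≃ₗ[K] LinearMap.range N')
    (hT : ∀ v : LinearMap.range N, (T ⟨N v, LinearMap.mem_range_self N v⟩ : W) = N' (T v)) :
    ∃ F : V ≃ₗ[K] W, ∀ v, F (N v) = N' (F v) := by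
  obtain ⟨C, hC1, hC2, hC3⟩ := exists_relCompl (LinearMap.ker N ⊓ LinearMap.range N)
    (LinearMap.ker N) inf_le_left
  obtain ⟨C', hC1', hC2', hC3'⟩ := exists_relCompl (LinearMap.ker N' ⊓ LinearMap.range N')
    (LinearMap.ker N') inf_le_left
  have hrange : finrank K (LinearMap.range N) = finrank K (LinearMap.range N') := T.finrank_eq
  have hker : finrank K (LinearMap.ker N) = finrank K (LinearMap.ker N') := by
    have h1 := LinearMap.finrank_range_add_finrank_ker N
    have h2 := LinearMap.finrank_range_add_finrank_ker N'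
    omega
  have hTs : ∀ w : LinearMap.range N',
      (T.symm ⟨N' w, LinearMap.mem_range_self N' w⟩ : V) = N (T.symm w) := by
    intro w
    have h1 := hT (T.symm w)
    rw [T.apply_symm_apply] at h1
    have h2 : T ⟨N (T.symm w), LinearMap.mem_range_self N _⟩ =
        ⟨N' w, LinearMap.mem_range_self N' w⟩ := Subtype.ext h1
    rw [← h2, T.symm_apply_apply]
  have hinf : finrank K ↥(LinearMap.ker N ⊓ LinearMap.range N) =
      finrank K ↥(LinearMap.ker N' ⊓ LinearMap.range N') :=
    le_antisymm (finrank_ker_inf_le N N' T hT) (finrank_ker_inf_le N' N T.symm hTs)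
  have hCC : finrank K C = finrank K C' := by
    have h1 := Submodule.finrank_sup_add_finrank_inf_eq (LinearMap.ker N ⊓ LinearMap.range N) C
    have h2 := Submodule.finrank_sup_add_finrank_inf_eq (LinearMap.ker N' ⊓ LinearMap.range N') C'
    rw [hC3, hC2, finrank_bot] at h1
    rw [hC3', hC2', finrank_bot] at h2
    omega
  obtain ⟨e⟩ := FiniteDimensional.nonempty_linearEquiv_of_finrank_eq hCC
  -- sections
  obtain ⟨S, hS⟩ := LinearMap.exists_rightInverse_of_surjective N'.rangeRestrict
    N'.range_rangeRestrict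
  have hS' : ∀ w : LinearMap.range N', N' (S w) = w := by
    intro w
    have h1 := LinearMap.congr_fun hS w
    exact congrArg Subtype.val h1
  -- the part with values in the kernel
  obtain ⟨κR, hκR⟩ : ∃ κR : V →ₗ[K] LinearMap.ker N', ∀ v : LinearMap.range N,
      (κR v : W) = T v - S (T ⟨N v, LinearMap.mem_range_self N v⟩) := by
    obtain ⟨g, hg⟩ : ∃ g : LinearMap.range N →ₗ[K] LinearMap.ker N', ∀ v : LinearMap.range N,
        (g v : W) = T v - S (T ⟨N v, LinearMap.mem_range_self N v⟩) := by
      refine ⟨LinearMap.codRestrict (LinearMap.ker N')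
        ((LinearMap.range N').subtype.comp T.toLinearMap - S.comp (T.toLinearMap.comp
          (N.rangeRestrict.comp (LinearMap.range N).subtype))) fun v => ?_, fun v => rfl⟩
      rw [LinearMap.mem_ker]
      change N' ((T v : W) - S (T ⟨N v, LinearMap.mem_range_self N v⟩)) = 0
      rw [map_sub, hS', hT, sub_self]
    obtain ⟨g', hg'⟩ := g.exists_extend
    refine ⟨g', fun v => ?_⟩
    rw [← hg, ← hg']
    rfl
  have hCR : C ⊓ LinearMap.range N = ⊥ := by
    rw [eq_bot_iff]
    rintro v ⟨h1, h2⟩
    have h3 : v ∈ (LinearMap.ker N ⊓ LinearMap.range N) ⊓ C := ⟨⟨hC1 h1, h2⟩, h1⟩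
    rwa [hC2] at h3
  have hCR' : C' ⊓ LinearMap.range N' = ⊥ := by
    rw [eq_bot_iff]
    rintro v ⟨h1, h2⟩
    have h3 : v ∈ (LinearMap.ker N' ⊓ LinearMap.range N') ⊓ C' := ⟨⟨hC1' h1, h2⟩, h1⟩
    rwa [hC2'] at h3
  obtain ⟨π, hπ⟩ := LinearMap.exists_leftInverse_of_injective
    ((LinearMap.range N).mkQ.comp C.subtype) (by
      rw [LinearMap.ker_eq_bot']
      intro c hc
      rw [LinearMap.comp_apply, Submodule.mkQ_apply, Submodule.Quotient.mk_eq_zero] at hc
      have h1 : (c : V) ∈ C ⊓ LinearMap.range N := ⟨c.2, hc⟩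
      rw [hCR, Submodule.mem_bot] at h1
      exact Subtype.ext h1)
  obtain ⟨eK, heK⟩ : ∃ eK : C →ₗ[K] LinearMap.ker N', ∀ c, (eK c : W) = e c :=
    ⟨(Submodule.inclusion hC1').comp e.toLinearMap, fun c => rfl⟩
  obtain ⟨κ, hκ⟩ : ∃ κ : V →ₗ[K] LinearMap.ker N', κ =
    κR + (eK - κR.comp C.subtype).comp (π.comp (LinearMap.range N).mkQ) := ⟨_, rfl⟩
  have hκ1 : ∀ v : LinearMap.range N,
      (κ v : W) = T v - S (T ⟨N v, LinearMap.mem_range_self N v⟩) := by
    intro v
    rw [hκ, LinearMap.add_apply, LinearMap.comp_apply, LinearMap.comp_apply, Submodule.mkQ_apply,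
      (Submodule.Quotient.mk_eq_zero _).2 v.2, map_zero, map_zero, add_zero, hκR]
  have hκ2 : ∀ c : C, (κ c : W) = e c := by
    intro c
    have h1 : π ((LinearMap.range N).mkQ c) = c := LinearMap.congr_fun hπ c
    rw [hκ, LinearMap.add_apply, LinearMap.comp_apply, LinearMap.comp_apply, h1,
      LinearMap.sub_apply, LinearMap.comp_apply, Submodule.subtype_apply, add_sub_cancel, heK]
  obtain ⟨F, hF⟩ : ∃ F : V →ₗ[K] W, F = S.comp (T.toLinearMap.comp N.rangeRestrict) +
    (LinearMap.ker N').subtype.comp κ := ⟨_, rfl⟩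
  have hFv : ∀ v, F v = S (T ⟨N v, LinearMap.mem_range_self N v⟩) + κ v := fun v => by
    rw [hF]
    rfl
  have hFR : ∀ v : LinearMap.range N, F v = T v := by
    intro v
    rw [hFv, hκ1]
    abel
  have hNF : ∀ v, N' (F v) = T ⟨N v, LinearMap.mem_range_self N v⟩ := by
    intro v
    rw [hFv, map_add, hS', LinearMap.mem_ker.1 (κ v).2, add_zero]
  have hFN : ∀ v, F (N v) = N' (F v) := by
    intro v
    rw [hNF, ← hFR]
  have hinj : Function.Injective F := by
    rw [← LinearMap.ker_eq_bot, LinearMap.ker_eq_bot']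
    intro v hv
    have h1 : N v = 0 := by
      have h2 := hNF v
      rw [hv, map_zero] at h2
      have h3 : T ⟨N v, LinearMap.mem_range_self N v⟩ = 0 := Subtype.ext h2.symm
      have h4 := T.injective (h3.trans (map_zero T).symm)
      exact congrArg Subtype.val h4
    have h5 : v ∈ (LinearMap.ker N ⊓ LinearMap.range N) ⊔ C := by
      rw [hC3]
      exact LinearMap.mem_ker.2 h1
    obtain ⟨a, ha, c, hc, rfl⟩ := Submodule.mem_sup.1 h5
    have hTa : F a = T ⟨a, ha.2⟩ := hFR ⟨a, ha.2⟩
    have hTc : F c = e ⟨c, hc⟩ := by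
      rw [hFv, hκ2 ⟨c, hc⟩]
      have h6 : (⟨N c, LinearMap.mem_range_self N c⟩ : LinearMap.range N) = 0 :=
        Subtype.ext (LinearMap.mem_ker.1 (hC1 hc))
      rw [h6, map_zero, map_zero, zero_add]
    have h7 : (e ⟨c, hc⟩ : W) ∈ C' ⊓ LinearMap.range N' := by
      refine ⟨(e ⟨c, hc⟩).2, ?_⟩
      have h8 : (e ⟨c, hc⟩ : W) = -(T ⟨a, ha.2⟩ : W) := by
        rw [← hTa, ← hTc, eq_neg_iff_add_eq_zero, add_comm, ← map_add, hv]
      rw [h8]
      exact Submodule.neg_mem _ (T ⟨a, ha.2⟩).2
    rw [hCR', Submodule.mem_bot] at h7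
    have h9 : (⟨c, hc⟩ : C) = 0 := e.injective (by rw [map_zero]; exact Subtype.ext h7)
    have hc0 : c = 0 := congrArg Subtype.val h9
    rw [hc0, add_zero] at hv ⊢
    rw [hTa] at hv
    have h10 : (⟨a, ha.2⟩ : LinearMap.range N) = 0 :=
      T.injective (by rw [map_zero]; exact Subtype.ext hv)
    exact congrArg Subtype.val h10
  refine ⟨LinearMap.linearEquivOfInjective F hinj hd, fun v => ?_⟩
  exact hFN v

/-- The partial products. -/
noncomputable def pp {V : Type} [AddCommGroup V] [Module K V] (a : End K V) (ξ : ℕ → K) (j : ℕ) :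
    End K V := ((List.range j).map fun i => a - ξ i • (1 : End K V)).prod

theorem pp_zero {V : Type} [AddCommGroup V] [Module K V] (a : End K V) (ξ : ℕ → K) :
    pp a ξ 0 = 1 := rfl

theorem pp_succ {V : Type} [AddCommGroup V] [Module K V] (a : End K V) (ξ : ℕ → K) (j : ℕ) :
    pp a ξ (j + 1) = pp a ξ j * (a - ξ j • (1 : End K V)) := by
  rw [pp, List.range_succ, List.map_append, List.prod_append, List.map_singleton,
    List.prod_singleton, pp]

theorem pp_succ' {V : Type} [AddCommGroup V] [Module K V] (a : End K V) (ξ : ℕ → K) (j : ℕ) :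
    pp a ξ (j + 1) = (a - ξ 0 • (1 : End K V)) * pp a (fun i => ξ (i + 1)) j := by
  rw [pp, List.range_succ_eq_map, List.map_cons, List.prod_cons, List.map_map, pp]
  rfl

theorem commute_pp {V : Type} [AddCommGroup V] [Module K V] (a : End K V) (ξ : ℕ → K) (c : K)
    (j : ℕ) : Commute (a - c • (1 : End K V)) (pp a ξ j) := by
  induction j with
  | zero => exact Commute.one_right _
  | succ j ih =>
    rw [pp_succ]
    refine ih.mul_right ?_
    have h1 : Commute a (a - ξ j • (1 : End K V)) :=
      (Commute.refl a).sub_right ((Commute.one_right a).smul_right _)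
    exact h1.sub_left ((Commute.one_left _).smul_left _)

theorem exists_equiv_of_rank : ∀ (s : ℕ) (ξ : ℕ → K) (V W : Type) [AddCommGroup V] [Module K V]
    [FiniteDimensional K V] [AddCommGroup W] [Module K W] [FiniteDimensional K W]
    (a : End K V) (b : End K W), pp a ξ s = 0 → pp b ξ s = 0 →
    (∀ j ≤ s, finrank K (LinearMap.range (pp a ξ j)) = finrank K (LinearMap.range (pp b ξ j))) →
    ∃ T : V ≃ₗ[K] W, ∀ v, T (a v) = b (T v) := by
  intro s
  induction s with
  | zero =>
    intro ξ V W _ _ _ _ _ _ a b ha hb _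
    rw [pp_zero] at ha hb
    have hV : ∀ v : V, v = 0 := fun v => by
      have := LinearMap.congr_fun ha v
      exact this
    have hW : ∀ v : W, v = 0 := fun v => by
      have := LinearMap.congr_fun hb v
      exact this
    refine ⟨{ toFun := fun _ => 0, map_add' := fun _ _ => (add_zero _).symm,
              map_smul' := fun c _ => (smul_zero _).symm, invFun := fun _ => 0,
              left_inv := fun v => (hV v).symm, right_inv := fun v => (hW v).symm }, fun v => ?_⟩
    exact (hW _).symm
  | succ s ih =>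
    intro ξ V W _ _ _ _ _ _ a b ha hb hr
    obtain ⟨N, hN⟩ : ∃ N, N = a - ξ 0 • (1 : End K V) := ⟨_, rfl⟩
    obtain ⟨N', hN'⟩ : ∃ N', N' = b - ξ 0 • (1 : End K W) := ⟨_, rfl⟩
    have key : ∀ {V : Type} [AddCommGroup V] [Module K V] [FiniteDimensional K V] (a N : End K V)
        (_ : N = a - ξ 0 • (1 : End K V)), ∃ a' : End K (LinearMap.range N),
        (∀ v, (a' v : V) = a v) ∧ (pp a ξ (s + 1) = 0 → pp a' (fun i => ξ (i + 1)) s = 0) ∧
        ∀ j, finrank K (LinearMap.range (pp a' (fun i => ξ (i + 1)) j)) =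
          finrank K (LinearMap.range (pp a ξ (j + 1))) := by
      intro V _ _ _ a N hN
      have hNa : ∀ v, N (a v) = a (N v) := by
        intro v
        rw [hN]
        simp only [LinearMap.sub_apply, LinearMap.smul_apply, Module.End.one_apply, map_sub,
          map_smul]
      have hst : ∀ v ∈ LinearMap.range N, a v ∈ LinearMap.range N := by
        rintro _ ⟨v, rfl⟩
        exact ⟨a v, hNa v⟩
      obtain ⟨a', ha'⟩ : ∃ a' : End K (LinearMap.range N), ∀ v, (a' v : V) = a v :=
        ⟨a.restrict hst, fun v => rfl⟩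
      have hpp : ∀ (j : ℕ) (v : LinearMap.range N), (pp a' (fun i => ξ (i + 1)) j v : V) =
          pp a (fun i => ξ (i + 1)) j v := by
        intro j
        induction j with
        | zero => intro v; rfl
        | succ j ihj =>
          intro v
          rw [pp_succ, pp_succ, Module.End.mul_apply, Module.End.mul_apply, ihj]
          congr 1
          simp only [LinearMap.sub_apply, LinearMap.smul_apply, Module.End.one_apply,
            Submodule.coe_sub, Submodule.coe_smul, ha']
      have hpp' : ∀ (j : ℕ) (v : V), pp a (fun i => ξ (i + 1)) j (N v) = pp a ξ (j + 1) v := by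
        intro j v
        rw [pp_succ', ← hN, Module.End.mul_apply]
        have h1 := (commute_pp a (fun i => ξ (i + 1)) (ξ 0) j).eq
        rw [← hN] at h1
        exact (LinearMap.congr_fun h1 v).symm
      refine ⟨a', ha', fun h0 => ?_, fun j => ?_⟩
      · ext ⟨_, v, rfl⟩
        rw [hpp]
        simp only
        rw [hpp', h0]
        rfl
      · have h1 : (LinearMap.range (pp a' (fun i => ξ (i + 1)) j)).map
            (LinearMap.range N).subtype = LinearMap.range (pp a ξ (j + 1)) := by
          ext w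
          constructor
          · rintro ⟨_, ⟨⟨_, v, rfl⟩, rfl⟩, rfl⟩
            refine ⟨v, ?_⟩
            rw [Submodule.subtype_apply, hpp, ← hpp']
          · rintro ⟨v, rfl⟩
            refine ⟨_, ⟨⟨N v, v, rfl⟩, rfl⟩, ?_⟩
            rw [Submodule.subtype_apply, hpp, ← hpp']
        rw [← h1, Submodule.finrank_map_subtype_eq]
    obtain ⟨a', ha1, ha2, ha3⟩ := key a N hN
    obtain ⟨b', hb1, hb2, hb3⟩ := key b N' hN'
    obtain ⟨T, hT⟩ := ih (fun i => ξ (i + 1)) _ _ a' b' (ha2 ha) (hb2 hb) (fun j hj => by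
      rw [ha3, hb3]
      exact hr (j + 1) (Nat.succ_le_succ hj))
    have hd : finrank K V = finrank K W := by
      have h1 := hr 0 (Nat.zero_le _)
      rw [pp_zero, pp_zero] at h1
      have h2 : ∀ {V : Type} [AddCommGroup V] [Module K V] [FiniteDimensional K V],
          finrank K (LinearMap.range (1 : End K V)) = finrank K V := by
        intro V _ _ _
        have h3 : LinearMap.range (1 : End K V) = ⊤ := LinearMap.range_id
        rw [h3, finrank_top]
      rwa [h2, h2] at h1
    have hNv : ∀ v, N v = a v - ξ 0 • v := fun v => by rw [hN]; rfl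
    have hNv' : ∀ v, N' v = b v - ξ 0 • v := fun v => by rw [hN']; rfl
    obtain ⟨F, hF⟩ := extend_equiv N N' hd T (fun v => by
      have h1 : (⟨N v, LinearMap.mem_range_self N v⟩ : LinearMap.range N) = a' v - ξ 0 • v := by
        apply Subtype.ext
        rw [Submodule.coe_sub, Submodule.coe_smul, ha1]
        exact hNv v
      rw [h1, map_sub, map_smul, hT, Submodule.coe_sub, Submodule.coe_smul, hb1, hNv'])
    refine ⟨F, fun v => ?_⟩
    have h1 := hF v
    rw [hNv, hNv', map_sub, map_smul] at h1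
    exact sub_left_injective h1

end lin

open Matrix Vale.Agent.P002R

theorem pp_toLin {r : ℕ} (a : Mat r ℂ) (ξ : ℕ → ℂ) (j : ℕ) :
    pp (Matrix.toLin' a) ξ j =
      Matrix.toLin' ((List.range j).map fun i => a - ξ i • (1 : Mat r ℂ)).prod := by
  induction j with
  | zero => rw [pp_zero, List.range_zero, List.map_nil, List.prod_nil, Matrix.toLin'_one]; rfl
  | succ j ih =>
    rw [pp_succ, ih, List.range_succ, List.map_append, List.prod_append, List.map_singleton,
      List.prod_singleton, Matrix.toLin'_mul, map_sub, map_smul, Matrix.toLin'_one]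
    rfl

/-- Matrices with equal ranks of the partial products are conjugate. -/
theorem conj_of_rank {r : ℕ} (a b : (Mat r ℂ)ˣ) (ξ : ℕ → ℂ) (s : ℕ)
    (ha : ((List.range s).map fun i => (a : Mat r ℂ) - ξ i • (1 : Mat r ℂ)).prod = 0)
    (hb : ((List.range s).map fun i => (b : Mat r ℂ) - ξ i • (1 : Mat r ℂ)).prod = 0)
    (h : ∀ j ≤ s, ((List.range j).map fun i => (a : Mat r ℂ) - ξ i • (1 : Mat r ℂ)).prod.rank =
      ((List.range j).map fun i => (b : Mat r ℂ) - ξ i • (1 : Mat r ℂ)).prod.rank) :
    IsConj a b := by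
  obtain ⟨T, hT⟩ := exists_equiv_of_rank s ξ (Fin r → ℂ) (Fin r → ℂ)
    (Matrix.toLin' (a : Mat r ℂ)) (Matrix.toLin' (b : Mat r ℂ))
    (by rw [pp_toLin, ha, map_zero]) (by rw [pp_toLin, hb, map_zero]) (fun j hj => by
      rw [pp_toLin, pp_toLin]
      exact h j hj)
  obtain ⟨P, hP⟩ : ∃ P : Mat r ℂ, P = LinearMap.toMatrix' T.toLinearMap := ⟨_, rfl⟩
  obtain ⟨Q, hQ⟩ : ∃ Q : Mat r ℂ, Q = LinearMap.toMatrix' T.symm.toLinearMap := ⟨_, rfl⟩
  have h1 : P * Q = 1 := by
    rw [hP, hQ, ← LinearMap.toMatrix'_comp]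
    have h2 : T.toLinearMap.comp T.symm.toLinearMap = LinearMap.id := by
      ext1 v
      simp
    rw [h2, LinearMap.toMatrix'_id]
  have h2 : Q * P = 1 := mul_eq_one_comm.1 h1
  have h3 : P * (a : Mat r ℂ) = (b : Mat r ℂ) * P := by
    apply Matrix.toLin'.injective
    rw [Matrix.toLin'_mul, Matrix.toLin'_mul, hP, Matrix.toLin'_toMatrix']
    exact LinearMap.ext fun v => hT v
  rw [isConj_iff]
  refine ⟨⟨P, Q, h1, h2⟩, ?_⟩
  apply Units.ext
  rw [Units.val_mul, Units.val_mul]
  change P * (a : Mat r ℂ) * Q = b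
  rw [h3, mul_assoc, h1, mul_one]

end Vale.Agent.P002L
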