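import Vale.Agent.P002L.L1Mat

/-!
# P002, genus 0, one regular class: simultaneously adapted bases
-/

namespace Vale.Agent.P002L

open Matrix Vale.Agent.P002R

variable {r : ℕ}

theorem exists_position (c : Mat r ℂ) (s : ℕ) (ξ : ℕ → ℂ)
    (E : ℕ → Submodule ℂ (Fin r → ℂ)) (h0 : E 0 = ⊥) (hs : E s = ⊤) (hmono : Monotone E)
    (hE : ∀ j, ∀ v ∈ E (j + 1), c *ᵥ v - ξ j • v ∈ E j) :
    ∃ (κ : Fin r → ℕ) (u M : Mat r ℂ), UU u ∧ Kup κ ξ M ∧ c * u = u * M ∧ (∀ i, κ i < s) ∧
      ∀ j ≤ s, Module.finrank ℂ (E j) = (Finset.univ.filter fun i => κ i < j).card := by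
  classical
  rcases Nat.eq_zero_or_pos r with hr | hr
  · subst hr
    refine ⟨fun i => i.elim0, 1, 1, uu_one, ⟨fun i => i.elim0, fun i => i.elim0⟩,
      Subsingleton.elim _ _, fun i => i.elim0, fun j _ => ?_⟩
    have : Subsingleton (Fin 0 → ℂ) := inferInstance
    rw [Subsingleton.elim (Finset.univ.filter _ : Finset (Fin 0)) ∅, Finset.card_empty]
    exact Module.finrank_zero_of_subsingleton
  have hs0 : 0 < s := by
    rcases Nat.eq_zero_or_pos s with h | h
    · rw [h, h0] at hs
      have h1 : (Pi.single ⟨0, hr⟩ 1 : Fin r → ℂ) ∈ (⊥ : Submodule ℂ (Fin r → ℂ)) := by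
        rw [hs]; trivial
      rw [Submodule.mem_bot] at h1
      have h2 := congrFun h1 ⟨0, hr⟩
      rw [Pi.single_eq_same] at h2
      exact absurd h2 one_ne_zero
    · exact h
  have hex : ∀ i : Fin r, ∃ j, ∃ v ∈ E (j + 1), v i = 1 ∧ ∀ k, i < k → v k = 0 := by
    intro i
    refine ⟨s - 1, Pi.single i 1, ?_, Pi.single_eq_same _ _, fun k hk => ?_⟩
    · rw [Nat.sub_add_cancel hs0, hs]; trivial
    · exact Pi.single_eq_of_ne hk.ne' _
  obtain ⟨κ, hκ⟩ : ∃ κ : Fin r → ℕ, κ = fun i => Nat.find (hex i) := ⟨_, rfl⟩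
  have hκm : ∀ i j, (∃ v ∈ E (j + 1), v i = 1 ∧ ∀ k, i < k → v k = 0) → κ i ≤ j := by
    intro i j h
    rw [hκ]
    exact Nat.find_min' (hex i) h
  have hκs : ∀ i, κ i < s := by
    intro i
    have h1 := hκm i (s - 1) ⟨Pi.single i 1, by
      rw [Nat.sub_add_cancel hs0, hs]; trivial, Pi.single_eq_same _ _, fun k hk =>
        Pi.single_eq_of_ne hk.ne' _⟩
    omega
  have hf : ∀ i, ∃ v ∈ E (κ i + 1), v i = 1 ∧ ∀ k, i < k → v k = 0 := by
    intro i
    rw [hκ]
    exact Nat.find_spec (hex i)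
  choose f hfE hf1 hf0 using hf
  obtain ⟨u, hu⟩ : ∃ u : Mat r ℂ, u = Matrix.of fun k i => f i k := ⟨_, rfl⟩
  have huU : UU u := by
    rw [hu]
    exact ⟨fun i j h => hf0 j i h, fun i => hf1 i⟩
  have hus : ∀ i, u *ᵥ Pi.single i 1 = f i := by
    intro i
    rw [mulVec_single_one, hu]
    rfl
  have hui : ∀ i, u⁻¹ *ᵥ f i = Pi.single i 1 := by
    intro i
    rw [← hus, mulVec_mulVec, huU.inv_mul, one_mulVec]
  -- the coordinates of the elements of `E j`
  have key : ∀ j, ∀ n : ℕ, ∀ v ∈ E j, (∀ k : Fin r, n ≤ (k : ℕ) → v k = 0) →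
      ∀ i, (u⁻¹ *ᵥ v) i ≠ 0 → κ i < j := by
    intro j n
    induction n with
    | zero =>
      intro v _ hv i hi
      have h1 : v = 0 := funext fun k => hv k (Nat.zero_le _)
      rw [h1, mulVec_zero] at hi
      exact absurd rfl hi
    | succ n ih =>
      intro v hvE hv i hi
      by_cases hn : n < r
      · by_cases ha : v ⟨n, hn⟩ = 0
        · refine ih v hvE (fun k hk => ?_) i hi
          rcases Nat.eq_or_lt_of_le hk with h | h
          · have h1 : k = ⟨n, hn⟩ := Fin.ext h.symm
            rw [h1]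
            exact ha
          · exact hv k h
        · have hκj : κ ⟨n, hn⟩ < j := by
            rcases Nat.eq_zero_or_pos j with hj | hj
            · rw [hj, h0, Submodule.mem_bot] at hvE
              rw [hvE] at ha
              exact absurd rfl ha
            · have h1 := hκm ⟨n, hn⟩ (j - 1) ⟨(v ⟨n, hn⟩)⁻¹ • v, by
                rw [Nat.sub_add_cancel hj]
                exact (E j).smul_mem _ hvE, by
                rw [Pi.smul_apply, smul_eq_mul, inv_mul_cancel₀ ha], fun k hk => by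
                rw [Pi.smul_apply, hv k (by rw [Fin.lt_def] at hk; exact hk), smul_zero]⟩
              omega
          have hfj : f ⟨n, hn⟩ ∈ E j := hmono hκj (hfE ⟨n, hn⟩)
          by_cases hin : i = ⟨n, hn⟩
          · rw [hin]; exact hκj
          · refine ih (v - v ⟨n, hn⟩ • f ⟨n, hn⟩) ((E j).sub_mem hvE ((E j).smul_mem _ hfj))
              (fun k hk => ?_) i ?_
            · rw [Pi.sub_apply, Pi.smul_apply, smul_eq_mul]
              rcases Nat.eq_or_lt_of_le hk with h | h
              · have h1 : k = ⟨n, hn⟩ := Fin.ext h.symm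
                rw [h1, hf1, mul_one, sub_self]
              · rw [hv k h, hf0 ⟨n, hn⟩ k (by rw [Fin.lt_def]; exact h), mul_zero, sub_zero]
            · rw [mulVec_sub, mulVec_smul, hui, Pi.sub_apply, Pi.smul_apply,
                Pi.single_eq_of_ne hin, smul_zero, sub_zero]
              exact hi
      · exact ih v hvE (fun k hk => absurd (hk.trans_lt k.2) hn) i hi
  have key' : ∀ j, ∀ v ∈ E j, ∀ i, (u⁻¹ *ᵥ v) i ≠ 0 → κ i < j := fun j v hv =>
    key j r v hv fun k hk => absurd k.2 (not_lt.2 hk)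
  have hMe : ∀ i, (u⁻¹ * c * u) *ᵥ Pi.single i 1 =
      u⁻¹ *ᵥ (c *ᵥ f i - ξ (κ i) • f i) + ξ (κ i) • Pi.single i 1 := by
    intro i
    rw [mulVec_sub, mulVec_smul, hui, sub_add_cancel, ← mulVec_mulVec, hus, mulVec_mulVec]
  refine ⟨κ, u, u⁻¹ * c * u, huU, ⟨fun i => ?_, fun k i hki hκ' => ?_⟩, ?_, hκs, fun j _ => ?_⟩
  · have h1 := congrFun (hMe i) i
    rw [mulVec_single_one, col_apply, Pi.add_apply, Pi.smul_apply, Pi.single_eq_same, smul_eq_mul,
      mul_one] at h1
    rw [h1]
    by_contra hne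
    refine lt_irrefl _ (key' (κ i) _ (hE (κ i) (f i) (hfE i)) i fun h2 => hne ?_)
    rw [h2, zero_add]
  · have h1 := congrFun (hMe i) k
    rw [mulVec_single_one, col_apply, Pi.add_apply, Pi.smul_apply, Pi.single_eq_of_ne hki,
      smul_zero, add_zero] at h1
    rw [h1]
    by_contra hne
    exact hκ' (key' (κ i) _ (hE (κ i) (f i) (hfE i)) k hne)
  · rw [← mul_assoc, ← mul_assoc, huU.mul_inv, one_mul]
  · have hspan : E j = Submodule.span ℂ (Set.range fun i : {i // κ i < j} => f i) := by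
      apply le_antisymm
      · intro v hv
        have h1 : v = ∑ i, (u⁻¹ *ᵥ v) i • f i := by
          have h2 : v = u *ᵥ (u⁻¹ *ᵥ v) := by
            rw [mulVec_mulVec, huU.mul_inv, one_mulVec]
          conv_lhs => rw [h2]
          funext k
          rw [Finset.sum_apply, mulVec, dotProduct]
          refine Finset.sum_congr rfl fun i _ => ?_
          rw [Pi.smul_apply, smul_eq_mul, mul_comm]
          congr 1
          rw [hu]
          rfl
        rw [h1]
        refine Submodule.sum_mem _ fun i _ => ?_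
        by_cases hi : (u⁻¹ *ᵥ v) i = 0
        · rw [hi, zero_smul]
          exact Submodule.zero_mem _
        · exact Submodule.smul_mem _ _ (Submodule.subset_span ⟨⟨i, key' j v hv i hi⟩, rfl⟩)
      · rw [Submodule.span_le]
        rintro _ ⟨i, rfl⟩
        exact hmono i.2 (hfE i)
    have hli : LinearIndependent ℂ f := by
      have h1 : LinearIndependent ℂ u.col := by
        rw [Matrix.linearIndependent_cols_iff_isUnit, Matrix.isUnit_iff_isUnit_det]
        exact huU.isUnit
      have h2 : u.col = f := by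
        rw [hu]
        rfl
      rwa [h2] at h1
    have hli' : LinearIndependent ℂ fun i : {i // κ i < j} => f i :=
      hli.comp _ Subtype.val_injective
    rw [hspan, finrank_span_eq_card hli', Fintype.card_subtype]

end Vale.Agent.P002L
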