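import Vale.Agent.P002L.T3
import Vale.Agent.P002L.T4
import Vale.Agent.P002R.Dual9

/-!
# P002, genus 0, one regular class: elements of a class near a given one
-/

namespace Vale.Agent.P002L

open Matrix Vale.Agent.P002R

section

variable {S : Type*} [CommRing S] {r : ℕ}

/-- The product of the first `j` factors. -/
def Qp (c : Mat r S) (ξ : ℕ → S) (j : ℕ) : Mat r S :=
  ((List.range j).map fun i => c - ξ i • (1 : Mat r S)).prod

theorem Qp_zero (c : Mat r S) (ξ : ℕ → S) : Qp c ξ 0 = 1 := rfl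

theorem Qp_succ (c : Mat r S) (ξ : ℕ → S) (j : ℕ) :
    Qp c ξ (j + 1) = Qp c ξ j * (c - ξ j • (1 : Mat r S)) := by
  unfold Qp
  rw [List.range_succ, List.map_append, List.prod_append, List.map_singleton, List.prod_singleton]

theorem Qp_comm (c : Mat r S) (ξ : ℕ → S) (j : ℕ) (a : S) :
    Commute (Qp c ξ j) (c - a • (1 : Mat r S)) := by
  induction j with
  | zero => exact Commute.one_left _
  | succ j ih =>
    rw [Qp_succ]
    refine ih.mul_left ?_
    refine Commute.sub_left (Commute.sub_right (Commute.refl c) ?_) (Commute.sub_right ?_ ?_)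
    · exact (Commute.one_right c).smul_right a
    · exact (Commute.one_left c).smul_left (ξ j)
    · exact ((Commute.one_left (1 : Mat r S)).smul_left (ξ j)).smul_right a

theorem Qp_map {T : Type*} [CommRing T] (f : S →+* T) (c : Mat r S) (ξ : ℕ → S) (j : ℕ) :
    (Qp c ξ j).map f = Qp (c.map f) (fun i => f (ξ i)) j := by
  induction j with
  | zero =>
    rw [Qp_zero, Qp_zero]
    exact Matrix.map_one f (map_zero f) (map_one f)
  | succ j ih =>
    rw [Qp_succ, Qp_succ, Matrix.map_mul, ih]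
    congr 1
    ext a b
    simp only [Matrix.map_apply, Matrix.sub_apply, Matrix.smul_apply, Matrix.one_apply, map_sub,
      smul_eq_mul, map_mul]
    split_ifs <;> simp

theorem Qp_conj {c u M : Mat r S} (ξ : ℕ → S) (h : c * u = u * M) (j : ℕ) :
    Qp c ξ j * u = u * Qp M ξ j := by
  induction j with
  | zero => rw [Qp_zero, Qp_zero, Matrix.one_mul, Matrix.mul_one]
  | succ j ih =>
    have h1 : (c - ξ j • (1 : Mat r S)) * u = u * (M - ξ j • (1 : Mat r S)) := by
      rw [Matrix.sub_mul, Matrix.mul_sub, h, smul_mul_assoc, mul_smul_comm, Matrix.one_mul,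
        Matrix.mul_one]
    rw [Qp_succ, Qp_succ, Matrix.mul_assoc, h1, ← Matrix.mul_assoc, ih, Matrix.mul_assoc]

/-- The columns with label less than `j` are killed. -/
theorem Qp_col {κ : Fin r → ℕ} {ξ : ℕ → S} {M : Mat r S} (hM : Kup κ ξ M) (j : ℕ) (a i : Fin r)
    (h : κ i < j) : Qp M ξ j a i = 0 := by
  induction j generalizing i with
  | zero => omega
  | succ j ih =>
    rw [Qp_succ, Matrix.mul_apply]
    refine Finset.sum_eq_zero fun b _ => ?_
    by_cases hb : b = i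
    · subst hb
      rcases Nat.lt_succ_iff_lt_or_eq.1 h with h' | h'
      · rw [ih b h', zero_mul]
      · rw [Matrix.sub_apply, Matrix.smul_apply, Matrix.one_apply_eq, hM.1, smul_eq_mul, mul_one,
          h', sub_self, mul_zero]
    · rw [Matrix.sub_apply, Matrix.smul_apply, Matrix.one_apply_ne hb, smul_zero, sub_zero]
      by_cases hκ : κ b < κ i
      · rw [ih b (by omega), zero_mul]
      · rw [hM.2 b i hb hκ, mul_zero]

end

theorem rank_add_ker {r : ℕ} (B : Mat r ℂ) :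
    B.rank + Module.finrank ℂ (LinearMap.ker B.mulVecLin) = r := by
  have h1 := LinearMap.finrank_range_add_finrank_ker B.mulVecLin
  rw [Module.finrank_fintype_fun_eq_card, Fintype.card_fin] at h1
  exact h1

/-- A minor which detects the rank. -/
theorem exists_minor {r : ℕ} (B : Mat r ℂ) :
    ∃ (X : Matrix (Fin B.rank) (Fin r) ℂ) (Y : Matrix (Fin r) (Fin B.rank) ℂ), X * B * Y = 1 := by
  obtain ⟨b⟩ : Nonempty (Module.Basis (Fin B.rank) ℂ (LinearMap.range B.mulVecLin)) :=
    ⟨Module.finBasisOfFinrankEq ℂ _ rfl⟩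
  have h1 : ∀ k, ∃ y : Fin r → ℂ, B *ᵥ y = (b k : Fin r → ℂ) := fun k => (b k).2
  choose y hy using h1
  obtain ⟨Y, hY⟩ : ∃ Y : Matrix (Fin r) (Fin B.rank) ℂ, ∀ i k, Y i k = y k i :=
    ⟨Matrix.of fun i k => y k i, fun _ _ => rfl⟩
  have h2 : ∀ v, (B * Y) *ᵥ v = ((∑ k, v k • b k : LinearMap.range B.mulVecLin) : Fin r → ℂ) := by
    intro v
    rw [← Matrix.mulVec_mulVec]
    have h3 : Y *ᵥ v = ∑ k, v k • y k := by
      ext i
      rw [Matrix.mulVec, dotProduct, Finset.sum_apply]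
      refine Finset.sum_congr rfl fun k _ => ?_
      rw [Pi.smul_apply, hY, smul_eq_mul, mul_comm]
    rw [h3, Matrix.mulVec_sum, Submodule.coe_sum]
    refine Finset.sum_congr rfl fun k _ => ?_
    rw [Matrix.mulVec_smul, hy, Submodule.coe_smul]
  obtain ⟨X, hX⟩ := exists_left_inv (B * Y) fun v hv => by
    rw [h2] at hv
    have h4 : ∑ k, v k • b k = 0 := Subtype.ext hv
    have h5 := Fintype.linearIndependent_iff.1 b.linearIndependent v h4
    exact funext h5
  exact ⟨X, Y, by rw [Matrix.mul_assoc, hX]⟩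

theorem rank_of_minor {r n : ℕ} (B : Mat r ℂ) (X : Matrix (Fin n) (Fin r) ℂ)
    (Y : Matrix (Fin r) (Fin n) ℂ) (h : (X * B * Y).det ≠ 0) : n ≤ B.rank := by
  have h1 : (X * B * Y).rank = n := by
    have h2 : IsUnit (X * B * Y) := by
      rw [Matrix.isUnit_iff_isUnit_det]
      exact isUnit_iff_ne_zero.2 h
    rw [Matrix.rank_of_isUnit _ h2, Fintype.card_fin]
  rw [← h1]
  exact (Matrix.rank_mul_le_left _ _).trans (Matrix.rank_mul_le_right _ _)

/-- The kernels are large. -/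
theorem card_le_ker {r : ℕ} {κ : Fin r → ℕ} {ξ : ℕ → ℂ} {c u M : Mat r ℂ} (hu : UU u)
    (hM : Kup κ ξ M) (h : c * u = u * M) (j : ℕ) :
    (Finset.univ.filter fun i => κ i < j).card ≤
      Module.finrank ℂ (LinearMap.ker (Qp c ξ j).mulVecLin) := by
  classical
  have hlin : LinearIndependent ℂ (fun i : Fin r => (fun a => u a i : Fin r → ℂ)) := by
    have h1 : IsUnit u := by
      rw [Matrix.isUnit_iff_isUnit_det, hu.det]
      exact isUnit_one
    exact Matrix.linearIndependent_cols_of_isUnit h1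
  have hlin' : LinearIndependent ℂ (fun i : {i // κ i < j} => (fun a => u a i : Fin r → ℂ)) :=
    hlin.comp (fun i : {i // κ i < j} => (i : Fin r)) Subtype.val_injective
  rw [← Fintype.card_subtype, ← finrank_span_eq_card hlin']
  refine Submodule.finrank_mono ?_
  rw [Submodule.span_le]
  rintro w ⟨⟨i, hi⟩, rfl⟩
  change (Qp c ξ j) *ᵥ (fun a => u a i) = 0
  ext a
  have h2 : (Qp c ξ j *ᵥ fun a => u a i) a = (Qp c ξ j * u) a i := rfl
  rw [h2, Qp_conj ξ h, Matrix.mul_apply]
  exact Finset.sum_eq_zero fun b _ => by rw [Qp_col hM j b i hi, mul_zero]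

theorem Qp_eq_zero {r : ℕ} {κ : Fin r → ℕ} {ξ : ℕ → ℂ} {c u M : Mat r ℂ} (hu : UU u)
    (hM : Kup κ ξ M) (h : c * u = u * M) (j : ℕ) (hj : ∀ i, κ i < j) : Qp c ξ j = 0 := by
  have h1 : Qp M ξ j = 0 := by
    ext a i
    exact Qp_col hM j a i (hj i)
  have h2 := Qp_conj ξ h j
  rw [h1, Matrix.mul_zero] at h2
  have h3 : IsUnit u := by
    rw [Matrix.isUnit_iff_isUnit_det, hu.det]
    exact isUnit_one
  obtain ⟨v, rfl⟩ := h3
  have h4 := congrArg (fun N => N * ((v⁻¹ : (Mat r ℂ)ˣ) : Mat r ℂ)) h2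
  simpa only [Matrix.mul_assoc, Units.mul_inv, Matrix.mul_one, Matrix.zero_mul] using h4

/-- The eigenvalues are a list of units. -/
theorem exists_eig {R : Type} [CommRing R] (φ : R →+* ℂ) {r : ℕ} (c : Mat r ℂ)
    (hc : EigU φ c) : ∃ l : ℕ → Rˣ, Qp c (fun j => φ (l j)) r = 0 := by
  obtain ⟨L, hL⟩ : ∃ L : List ℂ, (L : Multiset ℂ) = c.charpoly.roots :=
    ⟨c.charpoly.roots.toList, Multiset.coe_toList _⟩
  have hlen : L.length = r := by
    have h1 : Multiset.card c.charpoly.roots = r := by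
      rw [IsAlgClosed.card_roots_eq_natDegree, Matrix.charpoly_natDegree_eq_dim, Fintype.card_fin]
    rw [← hL, Multiset.coe_card] at h1
    exact h1
  have hroot : ∀ z ∈ L, ∃ e : Rˣ, φ (e : R) = z := by
    intro z hz
    refine hc z ?_
    have h1 : z ∈ c.charpoly.roots := by
      rw [← hL]
      exact hz
    exact Polynomial.isRoot_of_mem_roots h1
  have h2 : ∀ j : ℕ, ∃ e : Rˣ, ∀ h : j < L.length, φ (e : R) = L[j] := by
    intro j
    by_cases h : j < L.length
    · obtain ⟨e, he⟩ := hroot _ (List.getElem_mem h)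
      exact ⟨e, fun _ => he⟩
    · exact ⟨1, fun h' => absurd h' h⟩
  choose l hl using h2
  refine ⟨l, ?_⟩
  have h3 : (List.range r).map (fun i => c - φ (l i) • (1 : Mat r ℂ)) =
      L.map fun a => c - a • (1 : Mat r ℂ) := by
    refine List.ext_getElem (by rw [List.length_map, List.length_range, List.length_map, hlen])
      fun i h4 h5 => ?_
    rw [List.getElem_map, List.getElem_map, List.getElem_range, hl i (by
      rw [List.length_map] at h5
      exact h5)]
  have h4 : c.charpoly = (L.map fun a => Polynomial.X - Polynomial.C a).prod := by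
    have h5 := (IsAlgClosed.splits c.charpoly).eq_prod_roots_of_monic (Matrix.charpoly_monic c)
    rw [h5, ← hL, Multiset.map_coe, Multiset.prod_coe]
  have h5 : Polynomial.aeval c c.charpoly = 0 := Matrix.aeval_self_charpoly c
  rw [h4, map_list_prod, List.map_map] at h5
  unfold Qp
  rw [h3, ← h5]
  congr 1
  refine List.map_congr_left fun a _ => ?_
  rw [Function.comp_apply, map_sub, Polynomial.aeval_X, Polynomial.aeval_C,
    Algebra.algebraMap_eq_smul_one]

theorem charpoly_of_isConj' {r : ℕ} (a b : (Mat r ℂ)ˣ) (h : IsConj a b) :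
    (a : Mat r ℂ).charpoly = (b : Mat r ℂ).charpoly :=
  ((cjM_of_isConj h).charpoly).symm

/-- T5. -/
theorem exists_type {R : Type} [CommRing R] (φ : R →+* ℂ) {r : ℕ} (C c : (Mat r ℂ)ˣ)
    (hC : EigU φ (C : Mat r ℂ)) (hc : IsConj C c) :
    ∃ (κ : Fin r → ℕ) (l : ℕ → Rˣ) (u M : Mat r ℂ) (h : MvPolynomial (Fin r × Fin r) ℂ),
      UU u ∧ Kup κ (fun j => φ (l j)) M ∧ (c : Mat r ℂ) * u = u * M ∧
      MvPolynomial.eval (fun p => (c : Mat r ℂ) p.1 p.2) h ≠ 0 ∧
      ∀ (c' : (Mat r ℂ)ˣ) (u' M' : Mat r ℂ), UU u' → Kup κ (fun j => φ (l j)) M' →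
        (c' : Mat r ℂ) * u' = u' * M' →
        MvPolynomial.eval (fun p => (c' : Mat r ℂ) p.1 p.2) h ≠ 0 → IsConj C c' := by
  have hcE : EigU φ (c : Mat r ℂ) := by
    intro z hz
    refine hC z ?_
    rw [charpoly_of_isConj' C c hc]
    exact hz
  obtain ⟨l, hl⟩ := exists_eig φ (c : Mat r ℂ) hcE
  obtain ⟨ξ, hξ⟩ : ∃ ξ : ℕ → ℂ, ξ = fun j => φ (l j) := ⟨_, rfl⟩
  rw [← hξ] at hl
  obtain ⟨E, hE⟩ : ∃ E : ℕ → Submodule ℂ (Fin r → ℂ), ∀ j, E j =
    LinearMap.ker (Qp (c : Mat r ℂ) ξ j).mulVecLin := ⟨_, fun _ => rfl⟩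
  have hEm : ∀ j v, v ∈ E j ↔ Qp (c : Mat r ℂ) ξ j *ᵥ v = 0 := fun j v => by
    rw [hE]
    rfl
  obtain ⟨κ, u, M, hu, hM, hcu, hκ, hfin⟩ := exists_position (c : Mat r ℂ) r ξ E
    (by
      rw [hE, Qp_zero, Matrix.mulVecLin_one]
      exact LinearMap.ker_id)
    (by
      rw [hE, hl, Matrix.mulVecLin_zero]
      exact LinearMap.ker_zero)
    (by
      refine monotone_nat_of_le_succ fun j v hv => ?_
      rw [hEm] at hv ⊢
      rw [Qp_succ, (Qp_comm _ _ _ _).eq, ← Matrix.mulVec_mulVec, hv, Matrix.mulVec_zero])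
    (by
      intro j v hv
      rw [hEm] at hv ⊢
      have h1 : (c : Mat r ℂ) *ᵥ v - ξ j • v = ((c : Mat r ℂ) - ξ j • (1 : Mat r ℂ)) *ᵥ v := by
        rw [Matrix.sub_mulVec, Matrix.smul_mulVec, Matrix.one_mulVec]
      rw [h1, Matrix.mulVec_mulVec, ← Qp_succ, hv])
  have hminor := fun j => exists_minor (Qp (c : Mat r ℂ) ξ j)
  choose X Y hXY using hminor
  obtain ⟨P, hP⟩ : ∃ P : ℕ → MvPolynomial (Fin r × Fin r) ℂ, ∀ (j : ℕ) (d : Mat r ℂ),
      MvPolynomial.eval (fun p => d p.1 p.2) (P j) = (X j * Qp d ξ j * Y j).det := by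
    refine ⟨fun j => ((X j).map (MvPolynomial.C : ℂ → MvPolynomial (Fin r × Fin r) ℂ) *
      Qp (Matrix.of fun a b => (MvPolynomial.X (a, b) : MvPolynomial (Fin r × Fin r) ℂ))
      (fun i => MvPolynomial.C (ξ i)) j *
      (Y j).map (MvPolynomial.C : ℂ → MvPolynomial (Fin r × Fin r) ℂ)).det, fun j d => ?_⟩
    rw [RingHom.map_det]
    congr 1
    change (_ * _ * _ : Matrix _ _ _).map _ = _
    rw [Matrix.map_mul, Matrix.map_mul, Qp_map]
    have h1 : ∀ {a b : ℕ} (N : Matrix (Fin a) (Fin b) ℂ),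
        (N.map (MvPolynomial.C : ℂ → MvPolynomial (Fin r × Fin r) ℂ)).map
          (MvPolynomial.eval fun p => d p.1 p.2) = N := by
      intro a b N
      ext i k
      exact MvPolynomial.eval_C _
    rw [h1, h1]
    congr 2
    have h2 : (Matrix.of fun a b => (MvPolynomial.X (a, b) : MvPolynomial (Fin r × Fin r) ℂ)).map
        (MvPolynomial.eval fun p => d p.1 p.2) = d := by
      ext i k
      exact MvPolynomial.eval_X _
    rw [h2]
    congr 1
    funext i
    exact MvPolynomial.eval_C _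
  refine ⟨κ, l, u, M, ∏ j ∈ Finset.range (r + 1), P j, hu, hξ ▸ hM, hcu, ?_, ?_⟩
  · rw [map_prod, Finset.prod_ne_zero_iff]
    intro j _
    rw [hP, hXY, Matrix.det_one]
    exact one_ne_zero
  · intro c' u' M' hu' hM' hcu' hne
    rw [map_prod, Finset.prod_ne_zero_iff] at hne
    rw [← hξ] at hM'
    refine hc.trans ?_
    have hrank : ∀ j ≤ r, (Qp (c : Mat r ℂ) ξ j).rank = (Qp (c' : Mat r ℂ) ξ j).rank := by
      intro j hj
      have h1 := hne j (Finset.mem_range.2 (by omega))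
      rw [hP] at h1
      have h2 := rank_of_minor _ _ _ h1
      have h3 := card_le_ker hu' hM' hcu' j
      rw [← hfin j hj, hE] at h3
      have h4 := rank_add_ker (Qp (c : Mat r ℂ) ξ j)
      have h5 := rank_add_ker (Qp (c' : Mat r ℂ) ξ j)
      omega
    refine conj_of_rank c c' ξ r hl (Qp_eq_zero hu' hM' hcu' r hκ) hrank

end Vale.Agent.P002L
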